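import Vale.Agent.P058.Quad.Alpha

/-! # Row Q5: the two-dimensional weights `fA`, `fB`, `fG` -/

namespace Vale.Agent.P058.Quad

open scoped BigOperators

/-- product weight -/
def fP (k k' R : ℕ) (z : ℤ × ℤ) : ℕ := al k R z.1 * al k' R z.2

/-- the common part: `g` on the square `[K, R)²` -/
def fG (g K R : ℕ) (z : ℤ × ℤ) : ℕ :=
  if (K : ℤ) ≤ z.1 ∧ z.1 < R ∧ (K : ℤ) ≤ z.2 ∧ z.2 < R then g else 0

/-- the box containing all supports -/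
noncomputable def Bx (L : ℕ) : Finset (ℤ × ℤ) := Finset.Icc (0 : ℤ) L ×ˢ Finset.Icc (0 : ℤ) L

/-- (Q5) The key identity `A [k1][k2] = B [k3][k4]`, `A = fP k3 k4`, `B = fP k1 k2`.  In `ℤ` both
`A z - A (z - e1) - A (z - e2) + A (z - e1 - e2)` and the same for `B` factor as
`(al k3 x - al k3 (x - k1)) (al k4 y - al k4 (y - k2))`
`= (al k1 x - al k1 (x - k3)) (al k2 y - al k2 (y - k4))` by `al_swap` (twice); `zify`, `linear_combination`. -/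
lemma star (k1 k2 k3 k4 R : ℕ) (z : ℤ × ℤ) :
    fP k3 k4 R z + fP k3 k4 R (z - ((k1 : ℤ), 0) - (0, (k2 : ℤ))) +
        fP k1 k2 R (z - ((k3 : ℤ), 0)) + fP k1 k2 R (z - (0, (k4 : ℤ))) =
      fP k1 k2 R z + fP k1 k2 R (z - ((k3 : ℤ), 0) - (0, (k4 : ℤ))) +
        fP k3 k4 R (z - ((k1 : ℤ), 0)) + fP k3 k4 R (z - (0, (k2 : ℤ))) := by
  obtain ⟨x, y⟩ := z
  simp only [fP, Prod.mk_sub_mk, sub_zero]
  have h1 := al_swap k3 k1 R x
  have h2 := al_swap k4 k2 R y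
  zify at h1 h2 ⊢
  linear_combination ((al k4 R y : ℤ) - al k4 R (y - k2)) * h1 +
    ((al k1 R x : ℤ) - al k1 R (x - k3)) * h2

/-- (Q5) `fG ≤` a translate of a product weight (`al_bulk`) -/
lemma fG_le (g K R k k' : ℕ) (s : ℤ × ℤ) (hg : g ≤ k * k') (hs1 : 0 ≤ s.1) (hs2 : 0 ≤ s.2)
    (h1 : s.1 + k ≤ K) (h2 : s.2 + k' ≤ K) (z : ℤ × ℤ) : fG g K R z ≤ fP k k' R (z - s) := by
  unfold fG
  split_ifs with h
  · obtain ⟨a, b, c, d⟩ := h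
    simp only [fP, Prod.fst_sub, Prod.snd_sub]
    rw [al_bulk k R _ (by omega) (by omega), al_bulk k' R _ (by omega) (by omega)]
    exact hg
  · exact Nat.zero_le _

/-- (Q5) (`al_supp`) -/
lemma fP_supp (k k' R L : ℕ) (s : ℤ × ℤ) (hs1 : 0 ≤ s.1) (hs2 : 0 ≤ s.2)
    (h1 : s.1 + R + k ≤ (L : ℤ) + 1) (h2 : s.2 + R + k' ≤ (L : ℤ) + 1) (z : ℤ × ℤ) (hz : z ∉ Bx L) :
    fP k k' R (z - s) = 0 := by
  by_contra hne
  apply hz
  simp only [fP, Prod.fst_sub, Prod.snd_sub] at hne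
  have ha : al k R (z.1 - s.1) ≠ 0 := fun h => hne (by rw [h, Nat.zero_mul])
  have hb : al k' R (z.2 - s.2) ≠ 0 := fun h => hne (by rw [h, Nat.mul_zero])
  have ha' := al_supp k R _ ha
  have hb' := al_supp k' R _ hb
  simp only [Bx, Finset.mem_product, Finset.mem_Icc]
  refine ⟨⟨by omega, by omega⟩, ⟨by omega, by omega⟩⟩

/-- (Q5) -/
lemma fG_supp (g K R L : ℕ) (hL : R ≤ L) (z : ℤ × ℤ) (hz : z ∉ Bx L) : fG g K R z = 0 := by
  unfold fG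
  split_ifs with h
  · exfalso
    apply hz
    obtain ⟨a, b, c, d⟩ := h
    simp only [Bx, Finset.mem_product, Finset.mem_Icc]
    refine ⟨⟨by omega, by omega⟩, ⟨by omega, by omega⟩⟩
  · rfl

/-- (Q5) (`Finset.sum_product`, `Finset.sum_mul_sum`, `al_sum`) -/
lemma fP_sum (k k' R L : ℕ) (s : ℤ × ℤ) (hs1 : 0 ≤ s.1) (hs2 : 0 ≤ s.2)
    (h1 : s.1 + R + k ≤ (L : ℤ) + 1) (h2 : s.2 + R + k' ≤ (L : ℤ) + 1) :
    ∑ z ∈ Bx L, fP k k' R (z - s) = (k * R) * (k' * R) := by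
  unfold Bx
  rw [Finset.sum_product]
  simp only [fP, Prod.fst_sub, Prod.snd_sub]
  rw [← Finset.sum_mul_sum, al_sum k R L s.1 hs1 h1, al_sum k' R L s.2 hs2 h2]

lemma ind_sum (K R L : ℕ) (hL : R ≤ L) :
    ∑ x ∈ Finset.Icc (0 : ℤ) L, (if (K : ℤ) ≤ x ∧ x < R then 1 else 0 : ℕ) = R - K := by
  rw [← Finset.card_filter]
  have : (Finset.Icc (0 : ℤ) L).filter (fun x => (K : ℤ) ≤ x ∧ x < R) = Finset.Ico (K : ℤ) R := by
    ext x
    simp only [Finset.mem_filter, Finset.mem_Icc, Finset.mem_Ico]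
    constructor
    · rintro ⟨_, h⟩; exact h
    · rintro ⟨h1, h2⟩; exact ⟨⟨by omega, by omega⟩, h1, h2⟩
  rw [this, Int.card_Ico]
  omega

/-- (Q5) -/
lemma fG_sum (g K R L : ℕ) (hK : K ≤ R) (hL : R ≤ L) :
    ∑ z ∈ Bx L, fG g K R z = g * ((R - K) * (R - K)) := by
  unfold Bx
  rw [Finset.sum_product]
  have : ∀ x y : ℤ, fG g K R (x, y) =
      g * ((if (K : ℤ) ≤ x ∧ x < R then 1 else 0 : ℕ) * (if (K : ℤ) ≤ y ∧ y < R then 1 else 0 : ℕ)) := by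
    intro x y
    unfold fG
    by_cases h1 : (K : ℤ) ≤ x ∧ x < R <;> by_cases h2 : (K : ℤ) ≤ y ∧ y < R
    · rw [if_pos h1, if_pos h2, if_pos ⟨h1.1, h1.2, h2.1, h2.2⟩]; simp
    · rw [if_pos h1, if_neg h2, if_neg (fun h => h2 ⟨h.2.2.1, h.2.2.2⟩)]; simp
    · rw [if_neg h1, if_neg (fun h => h1 ⟨h.1, h.2.1⟩)]; simp
    · rw [if_neg h1, if_neg (fun h => h1 ⟨h.1, h.2.1⟩)]; simp
  simp only [this]
  simp only [← Finset.mul_sum]
  rw [ind_sum K R L hL, ← Finset.sum_mul, ind_sum K R L hL]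

end Vale.Agent.P058.Quad
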