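import Vale.Agent.P058.Quad.Defs

/-! # Row Q4: the one-dimensional trapezoid function `al k R` -/

namespace Vale.Agent.P058.Quad

open scoped BigOperators

lemma al_le (k R : ℕ) (t : ℤ) : al k R t ≤ k := by
  unfold al
  calc _ ≤ (Finset.range k).card := Finset.card_filter_le _ _
    _ = k := Finset.card_range k

lemma al_bulk (k R : ℕ) (t : ℤ) (h1 : (k : ℤ) - 1 ≤ t) (h2 : t < R) : al k R t = k := by
  unfold al
  rw [Finset.filter_true_of_mem, Finset.card_range]
  intro i hi
  have hi' : i < k := Finset.mem_range.mp hi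
  constructor <;> omega

lemma al_supp (k R : ℕ) (t : ℤ) (h : al k R t ≠ 0) : 0 ≤ t ∧ t < (R : ℤ) + k := by
  unfold al at h
  rw [Finset.card_ne_zero] at h
  obtain ⟨i, hi⟩ := h
  rw [Finset.mem_filter, Finset.mem_range] at hi
  obtain ⟨h1, h2, h3⟩ := hi
  constructor <;> omega

private lemma al_eq_sum (k R : ℕ) (t : ℤ) :
    al k R t = ∑ i ∈ Finset.range k, if (0 ≤ t - i ∧ t - i < R) then 1 else 0 := by
  unfold al
  rw [Finset.card_filter]

private lemma al_add (k k' R : ℕ) (t : ℤ) : al (k + k') R t = al k R t + al k' R (t - k) := by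
  rw [al_eq_sum, al_eq_sum, al_eq_sum, Finset.sum_range_add]
  congr 1
  apply Finset.sum_congr rfl
  intro i _
  have : t - ((k + i : ℕ) : ℤ) = t - k - i := by push_cast; ring
  rw [this]

lemma al_swap (k k' R : ℕ) (t : ℤ) :
    al k R t + al k' R (t - k) = al k' R t + al k R (t - k') := by
  rw [← al_add, ← al_add, Nat.add_comm]

lemma al_sum (k R L : ℕ) (s : ℤ) (h0 : 0 ≤ s) (h1 : s + R + k ≤ (L : ℤ) + 1) :
    ∑ t ∈ Finset.Icc (0 : ℤ) L, al k R (t - s) = k * R := by
  simp_rw [al_eq_sum]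
  rw [Finset.sum_comm]
  have key : ∀ i ∈ Finset.range k,
      (∑ t ∈ Finset.Icc (0 : ℤ) L, if (0 ≤ t - s - (i : ℤ) ∧ t - s - (i : ℤ) < R) then 1 else 0) = R := by
    intro i hi
    have hi' : i < k := Finset.mem_range.mp hi
    rw [← Finset.card_filter]
    have : (Finset.Icc (0 : ℤ) L).filter (fun t => 0 ≤ t - s - (i : ℤ) ∧ t - s - (i : ℤ) < R)
        = Finset.Ico (s + i) (s + i + R) := by
      ext t
      simp only [Finset.mem_filter, Finset.mem_Icc, Finset.mem_Ico]
      constructor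
      · rintro ⟨_, h2, h3⟩; constructor <;> omega
      · rintro ⟨h2, h3⟩; refine ⟨⟨?_, ?_⟩, ?_, ?_⟩ <;> omega
    rw [this, Int.card_Ico]
    have : s + i + R - (s + i) = (R : ℤ) := by ring
    rw [this, Int.toNat_natCast]
  rw [Finset.sum_congr rfl key, Finset.sum_const, Finset.card_range, smul_eq_mul]

end Vale.Agent.P058.Quad
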