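import Vale.Agent.P058.Quad.Geom

/-! # Row Q10: elementary geometry of four concyclic points -/

namespace Vale.Agent.P058.Quad

open scoped BigOperators RealInnerProductSpace

/-- (Q10a) apply `power_of_point` to `A - O`, ... -/
lemma power_of_point' {n : ℕ} (A B C D O : E n) (r p q : ℝ) (hA : dist A O = r) (hB : dist B O = r)
    (hC : dist C O = r) (hD : dist D O = r)
    (hrel : (1 - p) • A + p • C = (1 - q) • B + q • D) :
    p * (1 - p) * ‖C - A‖ ^ 2 = q * (1 - q) * ‖D - B‖ ^ 2 := by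
  rw [dist_eq_norm] at hA hB hC hD
  have h := power_of_point (A - O) (B - O) (C - O) (D - O) p q (by rw [hB, hA]) (by rw [hC, hA])
    (by rw [hD, hA]) (by linear_combination (norm := module) hrel)
  rwa [sub_sub_sub_cancel_right, sub_sub_sub_cancel_right] at h

/-- (Q10b) similar triangles: with `U = ‖C-A‖²`, `W = ‖D-B‖²`, `S = ⟪C-A,D-B⟫`,
`|AB|² = p² U + q² W - 2 p q S`, `|CD|² = (1-p)² U + (1-q)² W - 2 (1-p)(1-q) S`, and
`(1-p)(1-q)|AB|² - p q |CD|² = (p - q) (p (1-p) U - q (1-q) W) = 0`. -/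
lemma side_ratio {n : ℕ} (A B C D : E n) (p q : ℝ)
    (hrel : (1 - p) • A + p • C = (1 - q) • B + q • D)
    (hW : p * (1 - p) * ‖C - A‖ ^ 2 = q * (1 - q) * ‖D - B‖ ^ 2) :
    (1 - p) * (1 - q) * dist A B ^ 2 = p * q * dist C D ^ 2 := by
  obtain ⟨f1, f2, f3, f4, f5, f6⟩ := diff_formulas A B C D p q hrel
  rw [dist_eq_norm, dist_eq_norm, f1, f6, norm_sq_lin, norm_sq_lin]
  linear_combination (p - q) * hW

/-- `2 ⟪(1-p) a + p c, c - a⟫ = (2p-1) ‖c - a‖²` when `‖c‖ = ‖a‖`. -/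
lemma inner_comb_sub {F : Type*} [NormedAddCommGroup F] [InnerProductSpace ℝ F] (a c : F)
    (p : ℝ) (hc : ‖c‖ = ‖a‖) :
    2 * ⟪(1 - p) • a + p • c, c - a⟫ = (2 * p - 1) * ‖c - a‖ ^ 2 := by
  have hcc : ⟪c, c⟫ = ⟪a, a⟫ := by
    rw [real_inner_self_eq_norm_sq, real_inner_self_eq_norm_sq, hc]
  simp only [← real_inner_self_eq_norm_sq, inner_add_left, inner_smul_left,
    inner_sub_left, inner_sub_right, real_inner_comm a c, hcc,
    RCLike.conj_to_real]
  ring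

/-- (Q10c) strict Cauchy-Schwarz.  If equality holds then `D - B = κ (C - A)`, `κ ≠ 0`
(`abs_real_inner_div_norm_mul_norm_eq_one_iff` or `inner_eq_norm_mul_iff_real` and its negative version;
`D ≠ B` by `power_of_point'`).  With `m = (1-p) A + p C - O`, `u = C - A`:
`2 ⟪m,u⟫ = (2p-1) ‖u‖²` (from `|A-O| = |C-O|`) and `2 ⟪m,w⟫ = (2q-1) ‖w‖²`; so `2p-1 = (2q-1) κ`, and
`p (1-p) = q (1-q) κ²`; hence `κ² = 1`.  `κ = 1`: `p = q`, `B - A = p u - q w = 0`.
`κ = -1`: `q = 1-p`, `C - B = (1-p) u + q w = 0`. -/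
lemma strict_cauchy_schwarz {n : ℕ} (A B C D O : E n) (r p q : ℝ) (hA : dist A O = r)
    (hB : dist B O = r) (hC : dist C O = r) (hD : dist D O = r) (hp0 : 0 < p) (hp1 : p < 1)
    (hq0 : 0 < q) (hq1 : q < 1) (hrel : (1 - p) • A + p • C = (1 - q) • B + q • D)
    (hAC : A ≠ C) (hAB : A ≠ B) (hBC : B ≠ C) :
    ⟪C - A, D - B⟫ ^ 2 < ‖C - A‖ ^ 2 * ‖D - B‖ ^ 2 := by
  have hpow := power_of_point' A B C D O r p q hA hB hC hD hrel
  have hcs : ⟪C - A, D - B⟫ ^ 2 ≤ ‖C - A‖ ^ 2 * ‖D - B‖ ^ 2 := by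
    rw [← mul_pow, ← sq_abs]
    exact pow_le_pow_left₀ (abs_nonneg _) (abs_real_inner_le_norm _ _) 2
  refine lt_of_le_of_ne hcs fun heq => ?_
  have hU : 0 < ‖C - A‖ ^ 2 := by
    have : 0 < ‖C - A‖ := norm_pos_iff.2 (sub_ne_zero.2 (Ne.symm hAC))
    positivity
  set u := C - A with hu
  set w := D - B with hw
  set U := ‖u‖ ^ 2 with hUdef
  set κ : ℝ := ⟪u, w⟫ / U with hκ
  have hS : ⟪u, w⟫ = κ * U := by rw [hκ]; field_simp
  have hWU : ‖w‖ ^ 2 = κ ^ 2 * U := by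
    have : U * ‖w‖ ^ 2 = U * (κ ^ 2 * U) := by rw [← heq, hS]; ring
    exact mul_left_cancel₀ hU.ne' this
  have hwu : w = κ • u := by
    have h0 : ‖(-κ) • u + (1 : ℝ) • w‖ ^ 2 = 0 := by
      rw [norm_sq_lin, hS, hWU, ← hUdef]; ring
    have h1 : (-κ) • u + (1 : ℝ) • w = 0 := by
      rw [sq_eq_zero_iff, norm_eq_zero] at h0
      exact h0
    rw [one_smul, neg_smul, neg_add_eq_zero] at h1
    exact h1.symm
  rw [dist_eq_norm] at hA hB hC hD
  have h1 := inner_comb_sub (A - O) (C - O) p (by rw [hC, hA])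
  have h2 := inner_comb_sub (B - O) (D - O) q (by rw [hD, hB])
  have hm : (1 - q) • (B - O) + q • (D - O) = (1 - p) • (A - O) + p • (C - O) := by
    linear_combination (norm := module) (-1 : ℝ) • hrel
  rw [sub_sub_sub_cancel_right, ← hu, ← hUdef] at h1
  rw [sub_sub_sub_cancel_right, ← hw, hm, hWU, hwu, inner_smul_right] at h2
  rw [hWU] at hpow
  have e1 : p * (1 - p) = q * (1 - q) * κ ^ 2 := by
    have : U * (p * (1 - p)) = U * (q * (1 - q) * κ ^ 2) := by linear_combination hpow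
    exact mul_left_cancel₀ hU.ne' this
  have hκ0 : κ ≠ 0 := by
    intro h0
    rw [h0] at e1
    have : 0 < p * (1 - p) := mul_pos hp0 (by linarith)
    rw [e1] at this
    simp at this
  have e2 : (2 * q - 1) * κ = 2 * p - 1 := by
    have : (κ * U) * ((2 * q - 1) * κ) = (κ * U) * (2 * p - 1) := by
      linear_combination κ * h1 - h2
    exact mul_left_cancel₀ (mul_ne_zero hκ0 hU.ne') this
  have e3 : κ ^ 2 = 1 := by
    have : (2 * p - 1) ^ 2 = ((2 * q - 1) * κ) ^ 2 := by rw [e2]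
    linear_combination (-1 : ℝ) * this - 4 * e1
  obtain ⟨f1, f2, f3, f4, f5, f6⟩ := diff_formulas A B C D p q hrel
  rcases sq_eq_one_iff.1 e3 with hk | hk
  · apply hAB
    have hpq : p = q := by rw [hk] at e2; linarith
    rw [← sub_eq_zero, f1, ← hu, ← hw, hwu, hk, hpq]
    module
  · apply hBC
    have hpq : q = 1 - p := by rw [hk] at e2; linarith
    rw [← sub_eq_zero, f4, ← hu, ← hw, hwu, hk, hpq]
    module

end Vale.Agent.P058.Quad
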