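import Vale.Agent.P058.Quad.Defs

/-! # Row Q7: the set of `σ` with a design is convex (orthogonal concatenation) -/

namespace Vale.Agent.P058.Quad

open scoped BigOperators RealInnerProductSpace

section
variable {ι₁ ι₂ : Type} [Fintype ι₁] [Fintype ι₂]

/-- orthogonal concatenation with a scaling of the second block -/
noncomputable def cat (lam : ℝ) (x : EuclideanSpace ℝ ι₁) (y : EuclideanSpace ℝ ι₂) :
    EuclideanSpace ℝ (ι₁ ⊕ ι₂) :=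
  WithLp.toLp 2 (Sum.elim (fun i => x i) (fun i => lam * y i))

@[simp] lemma cat_inl (lam : ℝ) (x : EuclideanSpace ℝ ι₁) (y : EuclideanSpace ℝ ι₂) (i : ι₁) :
    cat lam x y (Sum.inl i) = x i := rfl

@[simp] lemma cat_inr (lam : ℝ) (x : EuclideanSpace ℝ ι₁) (y : EuclideanSpace ℝ ι₂) (i : ι₂) :
    cat lam x y (Sum.inr i) = lam * y i := rfl

lemma cat_sub (lam : ℝ) (x x' : EuclideanSpace ℝ ι₁) (y y' : EuclideanSpace ℝ ι₂) :
    cat lam x y - cat lam x' y' = cat lam (x - x') (y - y') := by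
  ext i
  rcases i with i | i
  · simp
  · simp; ring

lemma cat_inner (lam : ℝ) (x x' : EuclideanSpace ℝ ι₁) (y y' : EuclideanSpace ℝ ι₂) :
    ⟪cat lam x y, cat lam x' y'⟫ = ⟪x, x'⟫ + lam ^ 2 * ⟪y, y'⟫ := by
  simp only [PiLp.inner_apply, Fintype.sum_sum_type, cat_inl, cat_inr, Finset.mul_sum]
  congr 1
  refine Finset.sum_congr rfl fun i _ => ?_
  simp only [RCLike.inner_apply, conj_trivial]
  ring

lemma cat_mem (lam : ℝ) {v x : EuclideanSpace ℝ ι₁} {w y : EuclideanSpace ℝ ι₂}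
    (hx : x ∈ blockSet v) (hy : y ∈ blockSet w) : cat lam x y ∈ blockSet (cat lam v w) := by
  obtain ⟨π₁, rfl⟩ := hx
  obtain ⟨π₂, rfl⟩ := hy
  refine ⟨Equiv.sumCongr π₁ π₂, ?_⟩
  ext i
  rcases i with i | i <;> simp

end

/-- (Q7) If `σ = σ₁` or `σ = σ₂` there is nothing to do.  Otherwise let `U₁ = ‖c₁-a₁‖² > 0`,
`U₂ = ‖c₂-a₂‖² > 0`, `lam = √((σ-σ₁) U₁ / ((σ₂-σ) U₂))`, index type `ι₁ ⊕ ι₂`, vectors
`WithLp.toLp 2 (Sum.elim x₁ (fun i => lam * x₂ i))`.  Membership in `blockSet`: `Equiv.sumCongr π₁ π₂`.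
`Fintype.sum_sum_type`: `‖c-a‖² = U₁ + lam² U₂`, `⟪c-a,d-b⟫ = σ₁ U₁ + lam² σ₂ U₂ = σ (U₁ + lam² U₂)`. -/
theorem HasDesign.convex {p q σ₁ σ₂ σ : ℝ} (h1 : HasDesign p q σ₁) (h2 : HasDesign p q σ₂)
    (hl : σ₁ ≤ σ) (hr : σ ≤ σ₂) : HasDesign p q σ := by
  rcases hl.eq_or_lt with rfl | hl
  · exact h1
  rcases hr.eq_or_lt with rfl | hr
  · exact h2
  obtain ⟨ι₁, _, v₁, a₁, b₁, c₁, d₁, ha₁, hb₁, hc₁, hd₁, hrel₁, hne₁, hin₁⟩ := h1
  obtain ⟨ι₂, _, v₂, a₂, b₂, c₂, d₂, ha₂, hb₂, hc₂, hd₂, hrel₂, hne₂, hin₂⟩ := h2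
  have hU₁ : 0 < ‖c₁ - a₁‖ ^ 2 := by
    have : c₁ - a₁ ≠ 0 := sub_ne_zero.2 (Ne.symm hne₁)
    positivity
  have hU₂ : 0 < ‖c₂ - a₂‖ ^ 2 := by
    have : c₂ - a₂ ≠ 0 := sub_ne_zero.2 (Ne.symm hne₂)
    positivity
  set U₁ := ‖c₁ - a₁‖ ^ 2 with hU₁def
  set U₂ := ‖c₂ - a₂‖ ^ 2 with hU₂def
  set t : ℝ := (σ - σ₁) * U₁ / ((σ₂ - σ) * U₂) with ht
  have hd0 : 0 < (σ₂ - σ) * U₂ := mul_pos (sub_pos.2 hr) hU₂
  have ht0 : 0 ≤ t := div_nonneg (mul_nonneg (sub_nonneg.2 hl.le) hU₁.le) hd0.le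
  set lam := Real.sqrt t with hlam
  have hlam2 : lam ^ 2 = t := Real.sq_sqrt ht0
  have hkey : t * ((σ₂ - σ) * U₂) = (σ - σ₁) * U₁ := by
    rw [ht]; field_simp
  refine ⟨ι₁ ⊕ ι₂, inferInstance, cat lam v₁ v₂, cat lam a₁ a₂, cat lam b₁ b₂, cat lam c₁ c₂,
    cat lam d₁ d₂, cat_mem lam ha₁ ha₂, cat_mem lam hb₁ hb₂, cat_mem lam hc₁ hc₂,
    cat_mem lam hd₁ hd₂, ?_, ?_, ?_⟩
  · ext i
    rcases i with i | i
    · have := congrArg (fun z : EuclideanSpace ℝ ι₁ => z i) hrel₁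
      simpa using this
    · have := congrArg (fun z : EuclideanSpace ℝ ι₂ => z i) hrel₂
      simp only [PiLp.add_apply, PiLp.smul_apply, smul_eq_mul] at this
      simp only [PiLp.add_apply, PiLp.smul_apply, smul_eq_mul, cat_inr]
      linear_combination lam * this
  · intro h
    apply hne₁
    ext i
    have := congrArg (fun z : EuclideanSpace ℝ (ι₁ ⊕ ι₂) => z (Sum.inl i)) h
    simpa using this
  · rw [cat_sub, cat_sub, cat_inner, ← real_inner_self_eq_norm_sq, cat_inner,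
      real_inner_self_eq_norm_sq, real_inner_self_eq_norm_sq, hin₁, hin₂, hlam2]
    linear_combination hkey

end Vale.Agent.P058.Quad
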