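import Vale.Agent.P058.BlockSet

/-!
# Cyclic quadrilaterals with a rational squared ratio of opposite sides are subtransitive

Overview (paper proof): notes/P058_quad.md.  A *design* for `(p, q, σ)` consists of four rearrangements
`a b c d` of one vector with `(1-p) a + p c = (1-q) b + q d`, `a ≠ c`, `⟪c-a, d-b⟫ = σ ‖c-a‖²`.
-/

namespace Vale.Agent.P058.Quad

open scoped BigOperators RealInnerProductSpace

/-- four rearrangements `a b c d` of one vector `v` with `(1-p) a + p c = (1-q) b + q d`, `a ≠ c` and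
`⟪c-a, d-b⟫ = σ ‖c-a‖²` -/
def HasDesign (p q σ : ℝ) : Prop :=
  ∃ (ι : Type) (_ : Fintype ι) (v a b c d : EuclideanSpace ℝ ι),
    a ∈ blockSet v ∧ b ∈ blockSet v ∧ c ∈ blockSet v ∧ d ∈ blockSet v ∧
    (1 - p) • a + p • c = (1 - q) • b + q • d ∧ a ≠ c ∧ ⟪c - a, d - b⟫ = σ * ‖c - a‖ ^ 2

/-- the linear form `α₁ x + α₂ y` on `ℤ × ℤ` -/
def lin (α₁ α₂ : ℝ) (z : ℤ × ℤ) : ℝ := α₁ * z.1 + α₂ * z.2

/-- `al k R t = #{i < k : 0 ≤ t - i < R}`: the coefficients of `(1+s+..+s^(k-1)) (1+s+..+s^(R-1))` -/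
def al (k R : ℕ) (t : ℤ) : ℕ := ((Finset.range k).filter fun i : ℕ => 0 ≤ t - i ∧ t - i < R).card

end Vale.Agent.P058.Quad
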