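import Vale.Agent.P058.Quad.Weights

/-! # Row Q3: cells = (class, lattice point); the four values are translates of the lattice point -/

namespace Vale.Agent.P058.Quad

open scoped BigOperators RealInnerProductSpace

lemma lin_add (α₁ α₂ : ℝ) (z z' : ℤ × ℤ) : lin α₁ α₂ (z + z') = lin α₁ α₂ z + lin α₁ α₂ z' := by
  simp [lin]; ring

/-- (Q3) auxiliary: a weight supported in `Bx`, summed over the points `v ∈ Bx` with `v + s = z` -/
lemma sum_shift_eq (w : ℤ × ℤ → ℕ) (Bx : Finset (ℤ × ℤ)) (hsupp : ∀ v, v ∉ Bx → w v = 0)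
    (s z : ℤ × ℤ) : ∑ v ∈ Bx with v + s = z, w v = w (z - s) := by
  classical
  by_cases h : z - s ∈ Bx
  · have hf : Bx.filter (fun v => v + s = z) = {z - s} := by
      ext v
      simp only [Finset.mem_filter, Finset.mem_singleton]
      constructor
      · rintro ⟨_, hv⟩
        rw [← hv]
        simp
      · rintro rfl
        exact ⟨h, by simp⟩
    rw [hf, Finset.sum_singleton]
  · rw [hsupp _ h]
    apply Finset.sum_eq_zero
    intro v hv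
    rw [Finset.mem_filter] at hv
    exfalso
    apply h
    rw [← hv.2]
    simpa using hv.1

/-- the marginals of the cells `(c, v)` -/
private lemma marginal_shift {Cls : Type} [Fintype Cls] (w : Cls → ℤ × ℤ → ℕ)
    (Bx : Finset (ℤ × ℤ)) (hsupp : ∀ c v, v ∉ Bx → w c v = 0) (s : Cls → ℤ × ℤ) (z : ℤ × ℤ) :
    ∑ j : Cls × Bx with (j.2 : ℤ × ℤ) + s j.1 = z, w j.1 j.2 = ∑ c, w c (z - s c) := by
  classical
  rw [Finset.sum_filter, Fintype.sum_prod_type]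
  refine Finset.sum_congr rfl fun c _ => ?_
  rw [← sum_shift_eq (w c) Bx (hsupp c) (s c) z, Finset.sum_filter]
  exact Finset.sum_coe_sort Bx (fun v => if v + s c = z then w c v else 0)

/-- sums over the cells of a quantity that depends only on the class -/
private lemma sum_cells {Cls : Type} [Fintype Cls] (w : Cls → ℤ × ℤ → ℕ)
    (Bx : Finset (ℤ × ℤ)) (K : Cls → ℝ) :
    ∑ j : Cls × Bx, (w j.1 j.2 : ℝ) * K j.1 = ∑ c, ((∑ v ∈ Bx, w c v : ℕ) : ℝ) * K c := by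
  classical
  rw [Fintype.sum_prod_type]
  refine Finset.sum_congr rfl fun c _ => ?_
  show ∑ y : Bx, (w c y : ℝ) * K c = _
  rw [← Finset.sum_mul, Nat.cast_sum]
  congr 1
  exact Finset.sum_coe_sort Bx (fun v => (w c v : ℝ))

/-- (Q3) Apply `hasDesign_of_weights` with `J = Cls × Bx` (`Bx` coerced to a type), `Λ = ℤ × ℤ`,
`m (c, v) = w c v`, `fa (c, v) = v + sa c` etc., `val = lin α₁ α₂`.
Marginals: `∑ (c,v) with v + sa c = z, w c v = ∑ c, w c (z - sa c)` by `sum_shift_eq`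
(`Finset.sum_filter`, `Fintype.sum_prod_type`, `Finset.sum_coe_sort`).
`val (fc j) - val (fa j) = lin (sc c) - lin (sa c)` by `lin_add`. -/
theorem hasDesign_of_shifts {Cls : Type} [Fintype Cls] (p q σ : ℝ) (w : Cls → ℤ × ℤ → ℕ)
    (Bx : Finset (ℤ × ℤ)) (hsupp : ∀ c v, v ∉ Bx → w c v = 0) (sa sb sc sd : Cls → ℤ × ℤ)
    (α₁ α₂ : ℝ)
    (hb : ∀ z, ∑ c, w c (z - sb c) = ∑ c, w c (z - sa c))
    (hc : ∀ z, ∑ c, w c (z - sc c) = ∑ c, w c (z - sa c))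
    (hd : ∀ z, ∑ c, w c (z - sd c) = ∑ c, w c (z - sa c))
    (hrel : ∀ c, (1 - p) * lin α₁ α₂ (sa c) + p * lin α₁ α₂ (sc c) =
      (1 - q) * lin α₁ α₂ (sb c) + q * lin α₁ α₂ (sd c))
    (hU : ∑ c, ((∑ v ∈ Bx, w c v : ℕ) : ℝ) * (lin α₁ α₂ (sc c) - lin α₁ α₂ (sa c)) ^ 2 ≠ 0)
    (hS : ∑ c, ((∑ v ∈ Bx, w c v : ℕ) : ℝ) *
        ((lin α₁ α₂ (sc c) - lin α₁ α₂ (sa c)) * (lin α₁ α₂ (sd c) - lin α₁ α₂ (sb c))) =
      σ * ∑ c, ((∑ v ∈ Bx, w c v : ℕ) : ℝ) * (lin α₁ α₂ (sc c) - lin α₁ α₂ (sa c)) ^ 2) :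
    HasDesign p q σ := by
  classical
  have e1 : ∀ j : Cls × Bx, lin α₁ α₂ ((j.2 : ℤ × ℤ) + sc j.1) - lin α₁ α₂ ((j.2 : ℤ × ℤ) + sa j.1) =
      lin α₁ α₂ (sc j.1) - lin α₁ α₂ (sa j.1) := by
    intro j
    rw [lin_add, lin_add]
    ring
  have e2 : ∀ j : Cls × Bx, lin α₁ α₂ ((j.2 : ℤ × ℤ) + sd j.1) - lin α₁ α₂ ((j.2 : ℤ × ℤ) + sb j.1) =
      lin α₁ α₂ (sd j.1) - lin α₁ α₂ (sb j.1) := by
    intro j
    rw [lin_add, lin_add]
    ring
  refine hasDesign_of_weights (J := Cls × Bx) (Λ := ℤ × ℤ) p q σ (fun j => w j.1 j.2)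
    (fun j => (j.2 : ℤ × ℤ) + sa j.1) (fun j => (j.2 : ℤ × ℤ) + sb j.1)
    (fun j => (j.2 : ℤ × ℤ) + sc j.1) (fun j => (j.2 : ℤ × ℤ) + sd j.1) (lin α₁ α₂)
    ?_ ?_ ?_ ?_ ?_ ?_
  · intro z
    rw [marginal_shift w Bx hsupp sb z, marginal_shift w Bx hsupp sa z]
    exact hb z
  · intro z
    rw [marginal_shift w Bx hsupp sc z, marginal_shift w Bx hsupp sa z]
    exact hc z
  · intro z
    rw [marginal_shift w Bx hsupp sd z, marginal_shift w Bx hsupp sa z]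
    exact hd z
  · intro j
    have := hrel j.1
    simp only [lin_add]
    linear_combination this
  · simp only [e1]
    rw [sum_cells w Bx (fun c => (lin α₁ α₂ (sc c) - lin α₁ α₂ (sa c)) ^ 2)]
    exact hU
  · simp only [e1, e2]
    rw [sum_cells w Bx (fun c => (lin α₁ α₂ (sc c) - lin α₁ α₂ (sa c)) ^ 2),
      sum_cells w Bx (fun c => (lin α₁ α₂ (sc c) - lin α₁ α₂ (sa c)) *
        (lin α₁ α₂ (sd c) - lin α₁ α₂ (sb c)))]
    exact hS

end Vale.Agent.P058.Quad
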