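import Vale.Agent.P058.Quad.AB
import Vale.Agent.P058.Quad.Shift

/-! # Row Q6: the explicit designs -/

namespace Vale.Agent.P058.Quad

open scoped BigOperators RealInnerProductSpace

lemma lin_neg' (α₁ α₂ : ℝ) (z : ℤ × ℤ) : lin α₁ α₂ (-z) = - lin α₁ α₂ z := by
  simp [lin]; ring

lemma lin_zero' (α₁ α₂ : ℝ) : lin α₁ α₂ 0 = 0 := by
  simp [lin]

/-- (Q6) Apply `hasDesign_of_shifts` with `Cls = Fin 6`, `K = k1+k2+k3+k4`, `L = R + K`, `Bx L`,
`g = min (k1 k2) (k3 k4)`, `G = fG g K R`, `A = fP k3 k4 R`, `B = fP k1 k2 R`,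
`e1 = (k1,0)`, `e2 = (0,k2)`, `e3 = (k3,0)`, `e4 = (0,k4)`, `α₁ = p k2`, `α₂ = (1-p) k1`.

| class | weight at `v`      | sa  | sc  | sb (ε=1) | sd (ε=1) | sb (ε=-1) | sd (ε=-1) |
| 0     | G v                | -e1 | e2  | -e3      | e4       | e3        | -e4       |
| 1     | G v                | e1  | -e2 | e3       | -e4      | -e3       | e4        |
| 2     | A (v - e1) - G v   | -e1 | e2  | 0        | 0        | 0         | 0         |
| 3     | A (v - e2) - G v   | e1  | -e2 | 0        | 0        | 0         | 0         |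
| 4     | B (v - e3) - G v   | 0   | 0   | -e3      | e4       | -e3       | e4        |
| 5     | B (v - e4) - G v   | 0   | 0   | e3       | -e4      | e3        | -e4       |

All four marginals at `z` are `A z + A (z-e1-e2) + B (z-e3) + B (z-e4) - 2 G z`
`= B z + B (z-e3-e4) + A (z-e1) + A (z-e2) - 2 G z` (`star`, `fG_le`, `Fin.sum_univ_six`, `omega`).
`lin e1 = p k1 k2`, `lin e2 = (1-p) k1 k2`, so `lin (sc) - lin (sa) = ± k1 k2` on the classes 0-3;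
`lin e3 + lin e4 = ℓ₂ := p k2 k3 + (1-p) k1 k4`; relation: `(1-q) lin e3 = q lin e4` is `hpq`.
Masses: `|G| = g (R-K)²`, `|A| = k3 k4 R²` (`fP_sum`, `fG_sum`, `Finset.sum_tsub_distrib` or
`Finset.sum_add_distrib` with `fG_le`).
`U = 2 (k1 k2)² |A|`, `S = 2 ε (k1 k2) ℓ₂ |G|`. -/
theorem design_explicit (p q : ℝ) (k1 k2 k3 k4 R : ℕ) (h1 : 0 < k1) (h2 : 0 < k2) (h3 : 0 < k3)
    (h4 : 0 < k4) (hR : k1 + k2 + k3 + k4 < R)
    (hpq : (1 - q) * (p * (k2 * k3)) = q * ((1 - p) * (k1 * k4))) (ε : ℝ) (hε : ε = 1 ∨ ε = -1) :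
    HasDesign p q (ε * (((p * (k2 * k3) + (1 - p) * (k1 * k4)) * (min (k1 * k2) (k3 * k4) : ℕ) *
      ((R : ℝ) - (k1 + k2 + k3 + k4 : ℕ)) ^ 2) / ((k1 * k2) * ((k3 * k4) * (R : ℝ) ^ 2)))) := by
  obtain ⟨K, hK⟩ : ∃ K, K = k1 + k2 + k3 + k4 := ⟨_, rfl⟩
  obtain ⟨L, hL⟩ : ∃ L, L = R + K := ⟨_, rfl⟩
  obtain ⟨g, hg⟩ : ∃ g, g = min (k1 * k2) (k3 * k4) := ⟨_, rfl⟩
  obtain ⟨e1, he1⟩ : ∃ e : ℤ × ℤ, e = ((k1 : ℤ), 0) := ⟨_, rfl⟩
  obtain ⟨e2, he2⟩ : ∃ e : ℤ × ℤ, e = (0, (k2 : ℤ)) := ⟨_, rfl⟩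
  obtain ⟨e3, he3⟩ : ∃ e : ℤ × ℤ, e = ((k3 : ℤ), 0) := ⟨_, rfl⟩
  obtain ⟨e4, he4⟩ : ∃ e : ℤ × ℤ, e = (0, (k4 : ℤ)) := ⟨_, rfl⟩
  obtain ⟨G, hG⟩ : ∃ G, G = fG g K R := ⟨_, rfl⟩
  obtain ⟨A, hA⟩ : ∃ A, A = fP k3 k4 R := ⟨_, rfl⟩
  obtain ⟨B, hB⟩ : ∃ B, B = fP k1 k2 R := ⟨_, rfl⟩
  obtain ⟨u3, u4, hu⟩ : ∃ u3 u4 : ℤ × ℤ,
      (u3 = e3 ∧ u4 = e4 ∧ ε = 1) ∨ (u3 = -e3 ∧ u4 = -e4 ∧ ε = -1) := by
    rcases hε with h | h
    · exact ⟨e3, e4, Or.inl ⟨rfl, rfl, h⟩⟩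
    · exact ⟨-e3, -e4, Or.inr ⟨rfl, rfl, h⟩⟩
  -- comparison of the weights
  have hA1 : ∀ v, G v ≤ A (v - e1) := by
    intro v
    rw [hG, hA]
    exact fG_le g K R k3 k4 e1 (hg ▸ min_le_right _ _) (by simp [he1]) (by simp [he1])
      (by simp only [he1]; omega) (by simp only [he1]; omega) v
  have hA2 : ∀ v, G v ≤ A (v - e2) := by
    intro v
    rw [hG, hA]
    exact fG_le g K R k3 k4 e2 (hg ▸ min_le_right _ _) (by simp [he2]) (by simp [he2])
      (by simp only [he2]; omega) (by simp only [he2]; omega) v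
  have hB3 : ∀ v, G v ≤ B (v - e3) := by
    intro v
    rw [hG, hB]
    exact fG_le g K R k1 k2 e3 (hg ▸ min_le_left _ _) (by simp [he3]) (by simp [he3])
      (by simp only [he3]; omega) (by simp only [he3]; omega) v
  have hB4 : ∀ v, G v ≤ B (v - e4) := by
    intro v
    rw [hG, hB]
    exact fG_le g K R k1 k2 e4 (hg ▸ min_le_left _ _) (by simp [he4]) (by simp [he4])
      (by simp only [he4]; omega) (by simp only [he4]; omega) v
  have hstar : ∀ z, A z + A (z - e1 - e2) + B (z - e3) + B (z - e4) =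
      B z + B (z - e3 - e4) + A (z - e1) + A (z - e2) := by
    intro z
    rw [hA, hB, he1, he2, he3, he4]
    exact star k1 k2 k3 k4 R z
  obtain ⟨w, hw⟩ : ∃ w : Fin 6 → ℤ × ℤ → ℕ, w = ![G, G, fun v => A (v - e1) - G v,
      fun v => A (v - e2) - G v, fun v => B (v - e3) - G v, fun v => B (v - e4) - G v] := ⟨_, rfl⟩
  obtain ⟨sa, hsa⟩ : ∃ s : Fin 6 → ℤ × ℤ, s = ![-e1, e1, -e1, e1, 0, 0] := ⟨_, rfl⟩
  obtain ⟨sc, hsc⟩ : ∃ s : Fin 6 → ℤ × ℤ, s = ![e2, -e2, e2, -e2, 0, 0] := ⟨_, rfl⟩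
  obtain ⟨sb, hsb⟩ : ∃ s : Fin 6 → ℤ × ℤ, s = ![-u3, u3, 0, 0, -e3, e3] := ⟨_, rfl⟩
  obtain ⟨sd, hsd⟩ : ∃ s : Fin 6 → ℤ × ℤ, s = ![u4, -u4, 0, 0, e4, -e4] := ⟨_, rfl⟩
  have ma : ∀ z, ∑ c, w c (z - sa c) + 2 * G z =
      A z + A (z - e1 - e2) + B (z - e3) + B (z - e4) := by
    intro z
    rw [Fin.sum_univ_six, hw, hsa]
    simp only [Matrix.cons_val, sub_neg_eq_add, sub_zero, add_sub_cancel_right]
    have i1 := hA1 (z + e1)
    have i2 := hA2 (z - e1)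
    have i3 := hB3 z
    have i4 := hB4 z
    rw [add_sub_cancel_right] at i1
    omega
  have mc : ∀ z, ∑ c, w c (z - sc c) + 2 * G z =
      A z + A (z - e1 - e2) + B (z - e3) + B (z - e4) := by
    intro z
    rw [Fin.sum_univ_six, hw, hsc]
    simp only [Matrix.cons_val, sub_neg_eq_add, sub_zero, add_sub_cancel_right]
    have i1 := hA1 (z - e2)
    have i2 := hA2 (z + e2)
    have i3 := hB3 z
    have i4 := hB4 z
    rw [add_sub_cancel_right] at i2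
    rw [sub_right_comm] at i1
    rw [sub_right_comm z e2 e1]
    omega
  have mb : ∀ z, ∑ c, w c (z - sb c) + 2 * G z =
      B z + B (z - e3 - e4) + A (z - e1) + A (z - e2) := by
    intro z
    rw [Fin.sum_univ_six, hw, hsb]
    have i1 := hA1 z
    have i2 := hA2 z
    have i3 := hB3 (z + e3)
    have i4 := hB4 (z - e3)
    rw [add_sub_cancel_right] at i3
    rcases hu with ⟨hu3, hu4, -⟩ | ⟨hu3, hu4, -⟩
    · simp only [hu3, Matrix.cons_val, sub_neg_eq_add, sub_zero, add_sub_cancel_right]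
      omega
    · simp only [hu3, Matrix.cons_val, sub_neg_eq_add, sub_zero, add_sub_cancel_right, neg_neg]
      omega
  have md : ∀ z, ∑ c, w c (z - sd c) + 2 * G z =
      B z + B (z - e3 - e4) + A (z - e1) + A (z - e2) := by
    intro z
    rw [Fin.sum_univ_six, hw, hsd]
    have i1 := hA1 z
    have i2 := hA2 z
    have i3 := hB3 (z - e4)
    have i4 := hB4 (z + e4)
    rw [add_sub_cancel_right] at i4
    rw [sub_right_comm] at i3
    rcases hu with ⟨hu3, hu4, -⟩ | ⟨hu3, hu4, -⟩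
    · simp only [hu4, Matrix.cons_val, sub_neg_eq_add, sub_zero, add_sub_cancel_right]
      rw [sub_right_comm z e4 e3]
      omega
    · simp only [hu4, Matrix.cons_val, sub_neg_eq_add, sub_zero, add_sub_cancel_right, neg_neg]
      rw [sub_right_comm z e4 e3]
      omega
  -- supports
  have sG : ∀ v, v ∉ Bx L → G v = 0 := by
    intro v hv
    rw [hG]
    exact fG_supp g K R L (by omega) v hv
  have sA1 : ∀ v, v ∉ Bx L → A (v - e1) = 0 := by
    intro v hv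
    rw [hA]
    exact fP_supp k3 k4 R L e1 (by simp [he1]) (by simp [he1]) (by simp only [he1]; omega)
      (by simp only [he1]; omega) v hv
  have sA2 : ∀ v, v ∉ Bx L → A (v - e2) = 0 := by
    intro v hv
    rw [hA]
    exact fP_supp k3 k4 R L e2 (by simp [he2]) (by simp [he2]) (by simp only [he2]; omega)
      (by simp only [he2]; omega) v hv
  have sB3 : ∀ v, v ∉ Bx L → B (v - e3) = 0 := by
    intro v hv
    rw [hB]
    exact fP_supp k1 k2 R L e3 (by simp [he3]) (by simp [he3]) (by simp only [he3]; omega)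
      (by simp only [he3]; omega) v hv
  have sB4 : ∀ v, v ∉ Bx L → B (v - e4) = 0 := by
    intro v hv
    rw [hB]
    exact fP_supp k1 k2 R L e4 (by simp [he4]) (by simp [he4]) (by simp only [he4]; omega)
      (by simp only [he4]; omega) v hv
  have hsupp : ∀ c v, v ∉ Bx L → w c v = 0 := by
    intro c v hv
    rw [hw]
    fin_cases c <;>
      simp [sG v hv, sA1 v hv, sA2 v hv, sB3 v hv, sB4 v hv]
  -- masses
  have mG : ∑ v ∈ Bx L, G v = g * ((R - K) * (R - K)) := by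
    rw [hG]
    exact fG_sum g K R L (by omega) (by omega)
  have mA1 : ∑ v ∈ Bx L, A (v - e1) = (k3 * R) * (k4 * R) := by
    rw [hA]
    exact fP_sum k3 k4 R L e1 (by simp [he1]) (by simp [he1]) (by simp only [he1]; omega)
      (by simp only [he1]; omega)
  have mA2 : ∑ v ∈ Bx L, A (v - e2) = (k3 * R) * (k4 * R) := by
    rw [hA]
    exact fP_sum k3 k4 R L e2 (by simp [he2]) (by simp [he2]) (by simp only [he2]; omega)
      (by simp only [he2]; omega)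
  have m0 : ∑ v ∈ Bx L, w 0 v = g * ((R - K) * (R - K)) := by
    rw [← mG, hw]
    rfl
  have m1 : ∑ v ∈ Bx L, w 1 v = g * ((R - K) * (R - K)) := by
    rw [← mG, hw]
    rfl
  have m2 : ∑ v ∈ Bx L, w 2 v + g * ((R - K) * (R - K)) = (k3 * R) * (k4 * R) := by
    rw [← mG, ← mA1, ← Finset.sum_add_distrib, hw]
    refine Finset.sum_congr rfl fun v _ => ?_
    exact Nat.sub_add_cancel (hA1 v)
  have m3 : ∑ v ∈ Bx L, w 3 v + g * ((R - K) * (R - K)) = (k3 * R) * (k4 * R) := by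
    rw [← mG, ← mA2, ← Finset.sum_add_distrib, hw]
    refine Finset.sum_congr rfl fun v _ => ?_
    exact Nat.sub_add_cancel (hA2 v)
  -- the real masses
  have hKR : K ≤ R := by omega
  obtain ⟨MG, hMG⟩ : ∃ x : ℝ, x = g * (((R : ℝ) - K) * ((R : ℝ) - K)) := ⟨_, rfl⟩
  have r0 : ((∑ v ∈ Bx L, w 0 v : ℕ) : ℝ) = MG := by
    rw [m0, hMG]
    push_cast [Nat.cast_sub hKR]
    ring
  have r1 : ((∑ v ∈ Bx L, w 1 v : ℕ) : ℝ) = MG := by
    rw [m1, hMG]
    push_cast [Nat.cast_sub hKR]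
    ring
  have r2 : ((∑ v ∈ Bx L, w 2 v : ℕ) : ℝ) = (k3 * R) * (k4 * R) - MG := by
    have := congrArg (Nat.cast : ℕ → ℝ) m2
    push_cast [Nat.cast_sub hKR] at this
    rw [hMG]
    push_cast
    linarith
  have r3 : ((∑ v ∈ Bx L, w 3 v : ℕ) : ℝ) = (k3 * R) * (k4 * R) - MG := by
    have := congrArg (Nat.cast : ℕ → ℝ) m3
    push_cast [Nat.cast_sub hKR] at this
    rw [hMG]
    push_cast
    linarith
  -- values of the linear form
  obtain ⟨α₁, hα₁⟩ : ∃ a : ℝ, a = p * k2 := ⟨_, rfl⟩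
  obtain ⟨α₂, hα₂⟩ : ∃ a : ℝ, a = (1 - p) * k1 := ⟨_, rfl⟩
  have l1 : lin α₁ α₂ e1 = p * (k1 * k2) := by
    simp only [lin, he1, hα₁]
    push_cast
    ring
  have l2 : lin α₁ α₂ e2 = (1 - p) * (k1 * k2) := by
    simp only [lin, he2, hα₂]
    push_cast
    ring
  have l3 : lin α₁ α₂ e3 = p * (k2 * k3) := by
    simp only [lin, he3, hα₁]
    push_cast
    ring
  have l4 : lin α₁ α₂ e4 = (1 - p) * (k1 * k4) := by
    simp only [lin, he4, hα₂]
    push_cast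
    ring
  have lu3 : lin α₁ α₂ u3 = ε * (p * (k2 * k3)) := by
    rcases hu with ⟨hu3, -, he⟩ | ⟨hu3, -, he⟩
    · rw [hu3, he, l3, one_mul]
    · rw [hu3, he, lin_neg', l3]
      ring
  have lu4 : lin α₁ α₂ u4 = ε * ((1 - p) * (k1 * k4)) := by
    rcases hu with ⟨-, hu4, he⟩ | ⟨-, hu4, he⟩
    · rw [hu4, he, l4, one_mul]
    · rw [hu4, he, lin_neg', l4]
      ring
  have hUval : ∑ c, ((∑ v ∈ Bx L, w c v : ℕ) : ℝ) *
      (lin α₁ α₂ (sc c) - lin α₁ α₂ (sa c)) ^ 2 =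
      2 * (((k1 : ℝ) * k2) ^ 2 * ((k3 * k4) * (R : ℝ) ^ 2)) := by
    rw [Fin.sum_univ_six, r0, r1, r2, r3, hsa, hsc]
    simp only [Matrix.cons_val, lin_neg', lin_zero', l1, l2]
    ring
  have hSval : ∑ c, ((∑ v ∈ Bx L, w c v : ℕ) : ℝ) *
      ((lin α₁ α₂ (sc c) - lin α₁ α₂ (sa c)) * (lin α₁ α₂ (sd c) - lin α₁ α₂ (sb c))) =
      2 * ε * ((k1 : ℝ) * k2) * (p * (k2 * k3) + (1 - p) * (k1 * k4)) * MG := by
    rw [Fin.sum_univ_six, r0, r1, r2, r3, hsa, hsc, hsb, hsd]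
    simp only [Matrix.cons_val, lin_neg', lin_zero', l1, l2, lu3, lu4]
    ring
  have p1 : (0 : ℝ) < k1 := by exact_mod_cast h1
  have p2 : (0 : ℝ) < k2 := by exact_mod_cast h2
  have p3 : (0 : ℝ) < k3 := by exact_mod_cast h3
  have p4 : (0 : ℝ) < k4 := by exact_mod_cast h4
  have pR : (0 : ℝ) < R := by
    have : 0 < R := by omega
    exact_mod_cast this
  rw [← hK, ← hg]
  refine hasDesign_of_shifts p q _ w (Bx L) hsupp sa sb sc sd α₁ α₂ ?_ ?_ ?_ ?_ ?_ ?_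
  · intro z
    have i1 := mb z
    have i2 := ma z
    have i3 := hstar z
    omega
  · intro z
    have i1 := mc z
    have i2 := ma z
    omega
  · intro z
    have i1 := md z
    have i2 := ma z
    have i3 := hstar z
    omega
  · intro c
    rw [hsa, hsb, hsc, hsd]
    fin_cases c <;>
      simp only [Fin.zero_eta, Fin.mk_one, Fin.reduceFinMk, Matrix.cons_val, lin_neg', lin_zero',
        l1, l2, l3, l4, lu3, lu4] <;>
      first
        | ring1
        | linear_combination ε * hpq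
        | linear_combination (-ε) * hpq
        | linear_combination hpq
        | linear_combination (-1 : ℝ) * hpq
  · rw [hUval]
    positivity
  · rw [hSval, hUval, hMG]
    field_simp

end Vale.Agent.P058.Quad
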