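import Vale.Agent.P058.Quad.Defs

/-! # Row Q9: a design realises every quadrilateral with the same data -/

namespace Vale.Agent.P058.Quad

open scoped BigOperators RealInnerProductSpace

/-- `‖(1-p) a + p c‖² = ‖a‖² - p (1-p) ‖c - a‖²` when `‖c‖ = ‖a‖`. -/
lemma norm_sq_comb {F : Type*} [NormedAddCommGroup F] [InnerProductSpace ℝ F] (a c : F)
    (p : ℝ) (hc : ‖c‖ = ‖a‖) :
    ‖(1 - p) • a + p • c‖ ^ 2 = ‖a‖ ^ 2 - p * (1 - p) * ‖c - a‖ ^ 2 := by
  have hcc : ⟪c, c⟫ = ⟪a, a⟫ := by
    rw [real_inner_self_eq_norm_sq, real_inner_self_eq_norm_sq, hc]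
  simp only [← real_inner_self_eq_norm_sq, inner_add_left, inner_add_right, inner_smul_left,
    inner_smul_right, inner_sub_left, inner_sub_right, real_inner_comm a c, hcc,
    RCLike.conj_to_real]
  ring

/-- (Q9a) power of the point, abstract form: four vectors of the same norm with
`(1-p) a + p c = (1-q) b + q d`.  (`‖(1-p) a + p c‖² = N² - p (1-p) ‖c - a‖²`.) -/
lemma power_of_point {F : Type*} [NormedAddCommGroup F] [InnerProductSpace ℝ F] (a b c d : F)
    (p q : ℝ) (hb : ‖b‖ = ‖a‖) (hc : ‖c‖ = ‖a‖) (hd : ‖d‖ = ‖a‖)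
    (hrel : (1 - p) • a + p • c = (1 - q) • b + q • d) :
    p * (1 - p) * ‖c - a‖ ^ 2 = q * (1 - q) * ‖d - b‖ ^ 2 := by
  have h1 := norm_sq_comb a c p hc
  have h2 := norm_sq_comb b d q (hd.trans hb.symm)
  rw [hrel, h2, hb] at h1
  linarith

/-- the squared norm of `x u + y w` -/
lemma norm_sq_lin {F : Type*} [NormedAddCommGroup F] [InnerProductSpace ℝ F] (u w : F) (x y : ℝ) :
    ‖x • u + y • w‖ ^ 2 = x ^ 2 * ‖u‖ ^ 2 + 2 * x * y * ⟪u, w⟫ + y ^ 2 * ‖w‖ ^ 2 := by
  simp only [← real_inner_self_eq_norm_sq, inner_add_left, inner_add_right, inner_smul_left,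
    inner_smul_right, real_inner_comm u w, RCLike.conj_to_real]
  ring

/-- the six differences in terms of `u = c - a`, `w = d - b` -/
lemma diff_formulas {G : Type*} [NormedAddCommGroup G] [InnerProductSpace ℝ G] (a b c d : G)
    (p q : ℝ) (h : (1 - p) • a + p • c = (1 - q) • b + q • d) :
    a - b = (-p) • (c - a) + q • (d - b) ∧ a - c = (-1 : ℝ) • (c - a) + (0 : ℝ) • (d - b) ∧
      a - d = (-p) • (c - a) + (q - 1) • (d - b) ∧ b - c = (p - 1) • (c - a) + (-q) • (d - b) ∧
      b - d = (0 : ℝ) • (c - a) + (-1 : ℝ) • (d - b) ∧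
      c - d = (1 - p) • (c - a) + (q - 1) • (d - b) := by
  refine ⟨?_, ?_, ?_, ?_, ?_, ?_⟩
  · linear_combination (norm := module) h
  · module
  · linear_combination (norm := module) h
  · linear_combination (norm := module) (-1 : ℝ) • h
  · module
  · linear_combination (norm := module) h

/-- (Q9b) the six distances are determined by `‖c-a‖²`, `‖d-b‖²`, `⟪c-a,d-b⟫`:
with `u = c - a`, `w = d - b`: `b - a = p u - q w`, `d - a = p u + (1-q) w`, `c - b = (1-p) u + q w`,
`d - c = (1-q) w - (1-p) u`. -/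
lemma dist_eq_of_gram {F F' : Type*} [NormedAddCommGroup F] [InnerProductSpace ℝ F]
    [NormedAddCommGroup F'] [InnerProductSpace ℝ F'] (a b c d : F) (a' b' c' d' : F') (p q : ℝ)
    (hrel : (1 - p) • a + p • c = (1 - q) • b + q • d)
    (hrel' : (1 - p) • a' + p • c' = (1 - q) • b' + q • d')
    (hU : ‖c' - a'‖ ^ 2 = ‖c - a‖ ^ 2) (hW : ‖d' - b'‖ ^ 2 = ‖d - b‖ ^ 2)
    (hS : ⟪c' - a', d' - b'⟫ = ⟪c - a, d - b⟫) :
    dist a' b' = dist a b ∧ dist a' c' = dist a c ∧ dist a' d' = dist a d ∧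
      dist b' c' = dist b c ∧ dist b' d' = dist b d ∧ dist c' d' = dist c d := by
  have key : ∀ x y : ℝ, ‖x • (c' - a') + y • (d' - b')‖ = ‖x • (c - a) + y • (d - b)‖ := by
    intro x y
    have h : ‖x • (c' - a') + y • (d' - b')‖ ^ 2 = ‖x • (c - a) + y • (d - b)‖ ^ 2 := by
      rw [norm_sq_lin, norm_sq_lin, hU, hW, hS]
    exact (sq_eq_sq₀ (norm_nonneg _) (norm_nonneg _)).1 h
  obtain ⟨f1, f2, f3, f4, f5, f6⟩ := diff_formulas a b c d p q hrel
  obtain ⟨g1, g2, g3, g4, g5, g6⟩ := diff_formulas a' b' c' d' p q hrel'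
  simp only [dist_eq_norm]
  refine ⟨?_, ?_, ?_, ?_, ?_, ?_⟩
  · rw [f1, g1]; exact key _ _
  · rw [f2, g2]; exact key _ _
  · rw [f3, g3]; exact key _ _
  · rw [f4, g4]; exact key _ _
  · rw [f5, g5]; exact key _ _
  · rw [f6, g6]; exact key _ _

/-- (Q9c) Scale the design by `r = ‖C - A‖ / ‖c - a‖` (`smul_mem_blockSet`); its data are then those of
`A B C D` (`power_of_point` for the design, `norm_of_mem_blockSet`; `hW`, `0 < q (1-q)`), so
`dist_eq_of_gram` applies.  Map `g x = if x = A then a' else if x = B then b' else if x = C then c'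
else d'`; if two of the points `A B C D` coincide so do their images (distance `0`), hence
`g A = a'`, `g B = b'`, `g C = c'`, `g D = d'` in all cases.  `subtransitive_of_blockSet`. -/
theorem subtransitive_of_design {n : ℕ} (A B C D : E n) (p q σ : ℝ) (hq0 : 0 < q) (hq1 : q < 1)
    (hdes : HasDesign p q σ) (hrel : (1 - p) • A + p • C = (1 - q) • B + q • D) (hAC : A ≠ C)
    (hσ : ⟪C - A, D - B⟫ = σ * ‖C - A‖ ^ 2)
    (hW : p * (1 - p) * ‖C - A‖ ^ 2 = q * (1 - q) * ‖D - B‖ ^ 2) :
    IsSubtransitive ({A, B, C, D} : Set (E n)) := by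
  classical
  obtain ⟨ι, _, v, a, b, c, d, ha, hb, hc, hd, hrel0, hac, hσ0⟩ := hdes
  have hca : 0 < ‖c - a‖ := norm_pos_iff.2 (sub_ne_zero.2 (Ne.symm hac))
  set r : ℝ := ‖C - A‖ / ‖c - a‖ with hr
  have hr2 : r ^ 2 * ‖c - a‖ ^ 2 = ‖C - A‖ ^ 2 := by
    rw [hr]; field_simp
  have hrel' : (1 - p) • (r • a) + p • (r • c) = (1 - q) • (r • b) + q • (r • d) := by
    linear_combination (norm := module) r • hrel0
  have hU : ‖r • c - r • a‖ ^ 2 = ‖C - A‖ ^ 2 := by
    rw [← smul_sub, norm_smul, mul_pow, Real.norm_eq_abs, sq_abs, hr2]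
  have hS : ⟪r • c - r • a, r • d - r • b⟫ = ⟪C - A, D - B⟫ := by
    rw [← smul_sub, ← smul_sub, inner_smul_left, inner_smul_right, hσ0, hσ, ← hr2]
    simp only [RCLike.conj_to_real]
    ring
  have hpow := power_of_point (r • a) (r • b) (r • c) (r • d) p q
    (by rw [norm_smul, norm_smul, norm_of_mem_blockSet hb, norm_of_mem_blockSet ha])
    (by rw [norm_smul, norm_smul, norm_of_mem_blockSet hc, norm_of_mem_blockSet ha])
    (by rw [norm_smul, norm_smul, norm_of_mem_blockSet hd, norm_of_mem_blockSet ha]) hrel'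
  have hqq : 0 < q * (1 - q) := mul_pos hq0 (by linarith)
  have hW' : ‖r • d - r • b‖ ^ 2 = ‖D - B‖ ^ 2 := by
    rw [hU, hW] at hpow
    exact (mul_left_cancel₀ hqq.ne' hpow).symm
  obtain ⟨d1, d2, d3, d4, d5, d6⟩ :=
    dist_eq_of_gram A B C D (r • a) (r • b) (r • c) (r • d) p q hrel hrel' hU hW' hS
  set g : E n → EuclideanSpace ℝ ι := fun x =>
    if x = A then r • a else if x = B then r • b else if x = C then r • c else r • d with hg
  have gA : g A = r • a := by simp [hg]
  have gB : g B = r • b := by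
    by_cases h : B = A
    · have : dist (r • a) (r • b) = 0 := by rw [d1, h, dist_self]
      simp [hg, h, dist_eq_zero.1 this]
    · simp [hg, h]
  have gC : g C = r • c := by
    by_cases h : C = A
    · exact absurd h.symm hAC
    · by_cases h' : C = B
      · have : dist (r • b) (r • c) = 0 := by rw [d4, h', dist_self]
        rw [← dist_eq_zero.1 this, h', gB]
      · simp [hg, h, h']
  have gD : g D = r • d := by
    by_cases h : D = A
    · have : dist (r • a) (r • d) = 0 := by rw [d3, h, dist_self]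
      rw [← dist_eq_zero.1 this, h, gA]
    · by_cases h' : D = B
      · have : dist (r • b) (r • d) = 0 := by rw [d5, h', dist_self]
        rw [← dist_eq_zero.1 this, h', gB]
      · by_cases h'' : D = C
        · have : dist (r • c) (r • d) = 0 := by rw [d6, h'', dist_self]
          rw [← dist_eq_zero.1 this, h'', gC]
        · simp [hg, h, h', h'']
  refine subtransitive_of_blockSet _ (r • v) g ?_ ?_
  · rintro x (rfl | rfl | rfl | rfl)
    · rw [gA]; exact smul_mem_blockSet r ha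
    · rw [gB]; exact smul_mem_blockSet r hb
    · rw [gC]; exact smul_mem_blockSet r hc
    · rw [gD]; exact smul_mem_blockSet r hd
  · rintro x (rfl | rfl | rfl | rfl) y (rfl | rfl | rfl | rfl) <;>
      simp only [gA, gB, gC, gD, dist_self, d1, d2, d3, d4, d5, d6,
        dist_comm (r • b) (r • a), dist_comm (r • c) (r • a), dist_comm (r • d) (r • a),
        dist_comm (r • c) (r • b), dist_comm (r • d) (r • b), dist_comm (r • d) (r • c)] <;>
      first | rfl | exact dist_comm _ _

end Vale.Agent.P058.Quad
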