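import Vale.Agent.P058.Quad.Defs

/-! # Row Q8: choice of the parameters -/

namespace Vale.Agent.P058.Quad

/-- (Q8a) pure arithmetic: for `η < 1` and positive integers `m n` there are `j T R` with
`j² ≤ n m T² `, and `η ≤ (j²/(n m T²)) (1 - K/R)⁴`, `K = j + j n + n T + n T m`.
Take `δ = (1-η)/6` (wlog `0 ≤ η`), `T ≥ 1/δ`, `j = Nat.sqrt (n m T²)`, so `j² ≤ n m T² < (j+1)²`, `j ≥ T`,
`j²/(n m T²) ≥ (j/(j+1))² ≥ (1-δ)²`; `R ≥ K/δ`, `R > K`; `(1-δ)^6 ≥ 1 - 6δ = η` (`one_add_mul_le_pow`). -/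
lemma exists_jTR (η : ℝ) (hη : η < 1) (m n : ℕ) (hm : 0 < m) (hn : 0 < n) :
    ∃ j T R : ℕ, 0 < j ∧ 0 < T ∧ j * j ≤ n * m * (T * T) ∧ j + j * n + n * T + n * T * m < R ∧
      η * ((n * m * (T * T) : ℕ) * (R : ℝ) ^ 4) ≤
        (j * j : ℕ) * ((R : ℝ) - (j + j * n + n * T + n * T * m : ℕ)) ^ 4 := by
  set δ : ℝ := (1 - η) / 6 with hδdef
  have hδ : 0 < δ := by rw [hδdef]; linarith
  by_cases hη0 : η ≤ 0
  · refine ⟨1, 1, 1 + 1 * n + n * 1 + n * 1 * m + 1, one_pos, one_pos, ?_, Nat.lt_succ_self _, ?_⟩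
    · have : 1 ≤ n * m := Nat.mul_pos hn hm
      simpa using this
    · have h1 : η * (((n * m * (1 * 1) : ℕ) : ℝ) * (((1 + 1 * n + n * 1 + n * 1 * m + 1 : ℕ) : ℝ)) ^ 4) ≤ 0 :=
        mul_nonpos_of_nonpos_of_nonneg hη0 (by positivity)
      refine h1.trans ?_
      positivity
  replace hη0 : 0 < η := not_le.mp hη0
  have hδ1 : δ < 1 := by rw [hδdef]; linarith
  obtain ⟨T, hT⟩ := exists_nat_ge (1 / δ)
  have hTpos : 0 < T := by
    have : (0 : ℝ) < T := lt_of_lt_of_le (by positivity) hT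
    exact_mod_cast this
  set N : ℕ := n * m * (T * T) with hN
  set j : ℕ := Nat.sqrt N with hj
  have hjle : j * j ≤ N := Nat.sqrt_le N
  have hjlt : N < (j + 1) * (j + 1) := Nat.lt_succ_sqrt N
  have hTj : T ≤ j := by
    rw [hj, Nat.le_sqrt]
    rw [hN]
    exact Nat.le_mul_of_pos_left _ (Nat.mul_pos hn hm)
  have hjpos : 0 < j := lt_of_lt_of_le hTpos hTj
  set K : ℕ := j + j * n + n * T + n * T * m with hK
  obtain ⟨R0, hR0⟩ := exists_nat_ge ((K : ℝ) / δ)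
  refine ⟨j, T, R0 + K + 1, hjpos, hTpos, hjle, by omega, ?_⟩
  set R : ℕ := R0 + K + 1 with hR
  have hRr : (R : ℝ) = R0 + K + 1 := by rw [hR]; push_cast; ring
  have hRpos : (0 : ℝ) < R := by rw [hRr]; positivity
  have hKR : (K : ℝ) ≤ δ * R := by
    have h1 : (K : ℝ) ≤ δ * R0 := by
      rw [div_le_iff₀ hδ] at hR0; linarith
    have h2 : δ * (R0 : ℝ) ≤ δ * R := by
      apply mul_le_mul_of_nonneg_left _ hδ.le
      rw [hRr]; have : (0:ℝ) ≤ K := Nat.cast_nonneg _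
      linarith
    linarith
  have h1δ : 0 < 1 - δ := by linarith
  have hRK : (1 - δ) * R ≤ (R : ℝ) - K := by nlinarith
  have hpow : ((1 - δ) * R) ^ 4 ≤ ((R : ℝ) - K) ^ 4 :=
    pow_le_pow_left₀ (by positivity) hRK 4
  -- j ≥ (1-δ)(j+1)
  have hj1 : (1 - δ) * ((j : ℝ) + 1) ≤ j := by
    have hTδ : 1 ≤ δ * T := by
      rw [div_le_iff₀ hδ] at hT; linarith
    have hTj' : (T : ℝ) ≤ j := by exact_mod_cast hTj
    have : δ * (T : ℝ) ≤ δ * ((j : ℝ) + 1) := by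
      apply mul_le_mul_of_nonneg_left _ hδ.le; linarith
    nlinarith
  have hjsq : ((1 - δ) * ((j : ℝ) + 1)) ^ 2 ≤ (j : ℝ) ^ 2 :=
    pow_le_pow_left₀ (by positivity) hj1 2
  have hNr : (N : ℝ) ≤ ((j : ℝ) + 1) ^ 2 := by
    have : (N : ℝ) < (((j + 1) * (j + 1) : ℕ) : ℝ) := by exact_mod_cast hjlt
    push_cast at this
    nlinarith
  have hbern : η ≤ (1 - δ) ^ 6 := by
    have h := one_add_mul_le_pow (a := -δ) (by linarith) 6
    have e : (1 : ℝ) + (6 : ℕ) * (-δ) = η := by rw [hδdef]; push_cast; ring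
    rw [e] at h
    have e2 : (1 : ℝ) + -δ = 1 - δ := by ring
    rwa [e2] at h
  have hNnn : (0 : ℝ) ≤ N := Nat.cast_nonneg _
  have hmain : η * (N : ℝ) ≤ (j : ℝ) ^ 2 * (1 - δ) ^ 4 := by
    have s1 : η * (N : ℝ) ≤ (1 - δ) ^ 6 * N := mul_le_mul_of_nonneg_right hbern hNnn
    have s2 : (1 - δ) ^ 6 * (N : ℝ) ≤ (1 - δ) ^ 6 * ((j : ℝ) + 1) ^ 2 :=
      mul_le_mul_of_nonneg_left hNr (by positivity)
    have s3 : (1 - δ) ^ 6 * ((j : ℝ) + 1) ^ 2 = ((1 - δ) * ((j : ℝ) + 1)) ^ 2 * (1 - δ) ^ 4 := by ring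
    have s4 : ((1 - δ) * ((j : ℝ) + 1)) ^ 2 * (1 - δ) ^ 4 ≤ (j : ℝ) ^ 2 * (1 - δ) ^ 4 :=
      mul_le_mul_of_nonneg_right hjsq (by positivity)
    linarith
  have hjj : ((j * j : ℕ) : ℝ) = (j : ℝ) ^ 2 := by push_cast; ring
  rw [hjj]
  calc η * ((N : ℝ) * (R : ℝ) ^ 4) = (η * N) * (R : ℝ) ^ 4 := by ring
    _ ≤ ((j : ℝ) ^ 2 * (1 - δ) ^ 4) * (R : ℝ) ^ 4 := mul_le_mul_of_nonneg_right hmain (by positivity)
    _ = (j : ℝ) ^ 2 * ((1 - δ) * R) ^ 4 := by ring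
    _ ≤ (j : ℝ) ^ 2 * ((R : ℝ) - K) ^ 4 := mul_le_mul_of_nonneg_left hpow (by positivity)

/-- (Q8b) `ρ > 0`; write `ρ = m / n` (`ρ.num`, `ρ.den`), take `j T R` from `exists_jTR` with
`η = σ² q (1-q) / (p (1-p))` and `k1 = j`, `k2 = j n`, `k3 = n T`, `k4 = n T m`.
Then `k1 k4 / (k2 k3) = m / n`, `k1 k2 = j² n ≤ k3 k4 = n (n m T²)`, `min = j² n`.
With `ℓ₂ = p k2 k3 + (1-p) k1 k4`: `q ℓ₂ = p k2 k3`, `(1-q) ℓ₂ = (1-p) k1 k4`, hence
`q (1-q) ℓ₂² = p (1-p) k1 k2 k3 k4`, and for the right-hand side `X ≥ 0` of the claim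
`X² q (1-q) = p (1-p) (j²/(n m T²)) (1-K/R)⁴ ≥ σ² q (1-q)`; conclude with `abs_le_of_sq_le_sq` /
`Real.sqrt` monotonicity / `abs_le_abs`. -/
theorem exists_params (p q : ℝ) (hp0 : 0 < p) (hp1 : p < 1) (hq0 : 0 < q) (hq1 : q < 1) (ρ : ℚ)
    (hρ : (1 - q) * p = ρ * (q * (1 - p))) (σ : ℝ) (hσ : σ ^ 2 * (q * (1 - q)) < p * (1 - p)) :
    ∃ k1 k2 k3 k4 R : ℕ, 0 < k1 ∧ 0 < k2 ∧ 0 < k3 ∧ 0 < k4 ∧ k1 + k2 + k3 + k4 < R ∧
      (1 - q) * (p * (k2 * k3)) = q * ((1 - p) * (k1 * k4)) ∧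
      |σ| ≤ ((p * (k2 * k3) + (1 - p) * (k1 * k4)) * (min (k1 * k2) (k3 * k4) : ℕ) *
        ((R : ℝ) - (k1 + k2 + k3 + k4 : ℕ)) ^ 2) / ((k1 * k2) * ((k3 * k4) * (R : ℝ) ^ 2)) := by
  have h1p : 0 < 1 - p := by linarith
  have h1q : 0 < 1 - q := by linarith
  have hpp : 0 < p * (1 - p) := mul_pos hp0 h1p
  have hqq : 0 < q * (1 - q) := mul_pos hq0 h1q
  -- ρ > 0
  have hρpos : (0 : ℝ) < (ρ : ℝ) := by
    by_contra hcon
    have hle : (ρ : ℝ) ≤ 0 := not_lt.mp hcon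
    have h1 : (ρ : ℝ) * (q * (1 - p)) ≤ 0 :=
      mul_nonpos_of_nonpos_of_nonneg hle (mul_pos hq0 h1p).le
    have h2 : 0 < (1 - q) * p := mul_pos h1q hp0
    linarith
  have hρpos' : 0 < ρ := by exact_mod_cast hρpos
  have hnum : 0 < ρ.num := Rat.num_pos.mpr hρpos'
  obtain ⟨m, hm⟩ : ∃ m : ℕ, ρ.num = (m : ℤ) := ⟨ρ.num.toNat, (Int.toNat_of_nonneg hnum.le).symm⟩
  have hmpos : 0 < m := by
    have : (0 : ℤ) < (m : ℤ) := hm ▸ hnum
    exact_mod_cast this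
  set n : ℕ := ρ.den with hn
  have hnpos : 0 < n := ρ.den_pos
  have hρmn : (ρ : ℝ) * n = m := by
    have h : (ρ : ℚ) * (ρ.den : ℚ) = (ρ.num : ℚ) := Rat.mul_den_eq_num ρ
    have h' : ((ρ * (ρ.den : ℚ) : ℚ) : ℝ) = ((ρ.num : ℚ) : ℝ) := by rw [h]
    rw [hm] at h'
    push_cast at h'
    exact h'
  set η : ℝ := σ ^ 2 * (q * (1 - q)) / (p * (1 - p)) with hηdef
  have hη : η < 1 := by rw [hηdef, div_lt_one hpp]; exact hσ
  obtain ⟨j, T, R, hj, hT, hjle, hKR, hmain⟩ := exists_jTR η hη m n hmpos hnpos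
  refine ⟨j, j * n, n * T, n * T * m, R, hj, Nat.mul_pos hj hnpos, Nat.mul_pos hnpos hT,
    Nat.mul_pos (Nat.mul_pos hnpos hT) hmpos, hKR, ?_, ?_⟩
  · push_cast
    have : (1 - q) * p * ((j : ℝ) * n * (n * T)) = ((ρ : ℝ) * n) * (q * (1 - p)) * (j * (n * T)) := by
      rw [hρ]; ring
    rw [hρmn] at this
    linarith
  · have hmin : min (j * (j * n)) (n * T * (n * T * m)) = j * (j * n) := by
      apply min_eq_left
      calc j * (j * n) = (j * j) * n := by ring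
        _ ≤ (n * m * (T * T)) * n := Nat.mul_le_mul_right _ hjle
        _ = n * T * (n * T * m) := by ring
    rw [hmin]
    set K : ℕ := j + j * n + n * T + n * T * m with hK
    have hD : (0 : ℝ) < (R : ℝ) - K := by
      have : (K : ℝ) < R := by exact_mod_cast hKR
      linarith
    set D : ℝ := (R : ℝ) - K with hDdef
    have hJ : (0 : ℝ) < j := by exact_mod_cast hj
    have hTr : (0 : ℝ) < T := by exact_mod_cast hT
    have hnr : (0 : ℝ) < n := by exact_mod_cast hnpos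
    have hmr : (0 : ℝ) < m := by exact_mod_cast hmpos
    have hRr : (0 : ℝ) < R := by
      have : (0 : ℝ) ≤ K := Nat.cast_nonneg _
      linarith
    push_cast at hmain ⊢
    set J : ℝ := (j : ℝ)
    set n' : ℝ := (n : ℝ)
    set m' : ℝ := (m : ℝ)
    set T' : ℝ := (T : ℝ)
    set R' : ℝ := (R : ℝ)
    set ℓ : ℝ := p * (J * n' * (n' * T')) + (1 - p) * (J * (n' * T' * m')) with hℓ
    have hℓpos : 0 < ℓ := by positivity
    have hrel : (1 - q) * p * n' = m' * (q * (1 - p)) := by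
      rw [hρ, ← hρmn]; ring
    have hqℓ : q * ℓ = p * (J * n' * (n' * T')) := by
      rw [hℓ]
      have : q * ((1 - p) * (J * (n' * T' * m'))) = (1 - q) * p * n' * (J * n' * T') := by
        rw [hrel]; ring
      nlinarith
    have h1qℓ : (1 - q) * ℓ = (1 - p) * (J * (n' * T' * m')) := by
      have : ℓ = q * ℓ + (1 - q) * ℓ := by ring
      rw [hqℓ] at this
      rw [hℓ] at this ⊢
      linarith
    set X : ℝ := ℓ * D ^ 2 / (n' * T' * (n' * T' * m') * R' ^ 2) with hX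
    have hXeq : ℓ * (J * (J * n')) * D ^ 2 / (J * (J * n') * (n' * T' * (n' * T' * m') * R' ^ 2)) = X := by
      rw [hX]; field_simp
    rw [hXeq]
    have hXnn : 0 ≤ X := by positivity
    apply abs_le_of_sq_le_sq _ hXnn
    -- σ² ≤ X²
    have hb : 0 < n' * T' * (n' * T' * m') * R' ^ 2 := by positivity
    have hX2 : X ^ 2 = ℓ ^ 2 * D ^ 4 / (n' * T' * (n' * T' * m') * R' ^ 2) ^ 2 := by
      rw [hX, div_pow]; ring
    rw [hX2, le_div_iff₀ (by positivity)]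
    -- multiply by q(1-q)
    have hkey : (q * (1 - q)) * (σ ^ 2 * (n' * T' * (n' * T' * m') * R' ^ 2) ^ 2)
        ≤ (q * (1 - q)) * (ℓ ^ 2 * D ^ 4) := by
      have e1 : (q * (1 - q)) * (ℓ ^ 2 * D ^ 4) = (q * ℓ) * ((1 - q) * ℓ) * D ^ 4 := by ring
      rw [e1, hqℓ, h1qℓ]
      have e2 : σ ^ 2 * (q * (1 - q)) = η * (p * (1 - p)) := by
        rw [hηdef]; field_simp
      have e3 : (q * (1 - q)) * (σ ^ 2 * (n' * T' * (n' * T' * m') * R' ^ 2) ^ 2)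
          = (p * (1 - p)) * (n' ^ 3 * T' ^ 2 * m') * (η * (n' * m' * (T' * T') * R' ^ 4)) := by
        calc (q * (1 - q)) * (σ ^ 2 * (n' * T' * (n' * T' * m') * R' ^ 2) ^ 2)
            = (σ ^ 2 * (q * (1 - q))) * (n' * T' * (n' * T' * m') * R' ^ 2) ^ 2 := by ring
          _ = (η * (p * (1 - p))) * (n' * T' * (n' * T' * m') * R' ^ 2) ^ 2 := by rw [e2]
          _ = _ := by ring
      rw [e3]
      have e4 : p * (J * n' * (n' * T')) * ((1 - p) * (J * (n' * T' * m'))) * D ^ 4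
          = (p * (1 - p)) * (n' ^ 3 * T' ^ 2 * m') * (J * J * D ^ 4) := by ring
      rw [e4]
      exact mul_le_mul_of_nonneg_left hmain (by positivity)
    exact le_of_mul_le_mul_left hkey hqq

end Vale.Agent.P058.Quad
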