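import Vale.Agent.P058.Quad.Explicit
import Vale.Agent.P058.Quad.Convex
import Vale.Agent.P058.Quad.Param
import Vale.Agent.P058.Quad.Circle

/-! # Assembly -/

namespace Vale.Agent.P058.Quad

open scoped BigOperators RealInnerProductSpace

/-- all admissible `σ` have a design -/
theorem hasDesign_all (p q : ℝ) (hp0 : 0 < p) (hp1 : p < 1) (hq0 : 0 < q) (hq1 : q < 1) (ρ : ℚ)
    (hρ : (1 - q) * p = ρ * (q * (1 - p))) (σ : ℝ) (hσ : σ ^ 2 * (q * (1 - q)) < p * (1 - p)) :
    HasDesign p q σ := by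
  obtain ⟨k1, k2, k3, k4, R, h1, h2, h3, h4, hR, hpq, hX⟩ :=
    exists_params p q hp0 hp1 hq0 hq1 ρ hρ σ hσ
  have hplus := design_explicit p q k1 k2 k3 k4 R h1 h2 h3 h4 hR hpq 1 (Or.inl rfl)
  have hminus := design_explicit p q k1 k2 k3 k4 R h1 h2 h3 h4 hR hpq (-1) (Or.inr rfl)
  have h := abs_le.1 hX
  exact hminus.convex hplus (by linarith [h.1]) (by linarith [h.2])

/-- core form: the diagonals cut each other in the ratios `p`, `q` with `(1-q) p / (q (1-p))` rational -/
theorem subtransitive_of_ratio {n : ℕ} (A B C D O : E n) (r p q : ℝ) (hA : dist A O = r)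
    (hB : dist B O = r) (hC : dist C O = r) (hD : dist D O = r) (hp0 : 0 < p) (hp1 : p < 1)
    (hq0 : 0 < q) (hq1 : q < 1) (hrel : (1 - p) • A + p • C = (1 - q) • B + q • D)
    (hAC : A ≠ C) (hAB : A ≠ B) (hBC : B ≠ C) (ρ : ℚ) (hρ : (1 - q) * p = ρ * (q * (1 - p))) :
    IsSubtransitive ({A, B, C, D} : Set (E n)) := by
  have hW := power_of_point' A B C D O r p q hA hB hC hD hrel
  have hcs := strict_cauchy_schwarz A B C D O r p q hA hB hC hD hp0 hp1 hq0 hq1 hrel hAC hAB hBC
  have hU : 0 < ‖C - A‖ ^ 2 := by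
    have : 0 < ‖C - A‖ := norm_pos_iff.2 (sub_ne_zero.2 hAC.symm)
    positivity
  set U := ‖C - A‖ ^ 2 with hUdef
  set W := ‖D - B‖ ^ 2 with hWdef
  set S := ⟪C - A, D - B⟫ with hSdef
  have hσ : S = (S / U) * U := by field_simp
  refine subtransitive_of_design A B C D p q (S / U) hq0 hq1
    (hasDesign_all p q hp0 hp1 hq0 hq1 ρ hρ (S / U) ?_) hrel hAC hσ hW
  have hqq : 0 < q * (1 - q) := mul_pos hq0 (by linarith)
  have h1 : S ^ 2 * (q * (1 - q)) < U * (p * (1 - p) * U) := by
    rw [hW]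
    nlinarith [mul_lt_mul_of_pos_right hcs hqq]
  rw [div_pow, div_mul_eq_mul_div, div_lt_iff₀ (by positivity)]
  nlinarith [h1]

/-- **Theorem S.**  A cyclic quadrilateral `ABCD` (four distinct points on a sphere whose diagonals
`AC`, `BD` cross) with `|AB|² / |CD|²` rational is subtransitive. -/
theorem cyclic_quadrilateral_subtransitive {n : ℕ} (A B C D O : E n) (r p q : ℝ)
    (hA : dist A O = r) (hB : dist B O = r) (hC : dist C O = r) (hD : dist D O = r)
    (hp0 : 0 < p) (hp1 : p < 1) (hq0 : 0 < q) (hq1 : q < 1)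
    (hrel : (1 - p) • A + p • C = (1 - q) • B + q • D)
    (hAC : A ≠ C) (hAD : A ≠ D) (hCD : C ≠ D) (ρ : ℚ) (hρ : dist A B ^ 2 = ρ * dist C D ^ 2) :
    IsSubtransitive ({A, B, C, D} : Set (E n)) := by
  have hW := power_of_point' A B C D O r p q hA hB hC hD hrel
  have hside := side_ratio A B C D p q hrel hW
  have hcd : 0 < dist C D ^ 2 := by
    have : 0 < dist C D := dist_pos.2 hCD
    positivity
  have hρ' : (1 - (1 - q)) * p = ρ * ((1 - q) * (1 - p)) := by
    rw [hρ] at hside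
    have : ((1 - p) * (1 - q) * ρ - p * q) * dist C D ^ 2 = 0 := by linarith
    rcases mul_eq_zero.1 this with h | h
    · linarith
    · exact absurd h hcd.ne'
  have hrel' : (1 - p) • A + p • C = (1 - (1 - q)) • D + (1 - q) • B := by
    rw [hrel, add_comm]; congr 1; congr 1; ring
  have := subtransitive_of_ratio A D C B O r p (1 - q) hA hD hC hB hp0 hp1 (by linarith)
    (by linarith) hrel' hAC hAD hCD.symm ρ hρ'
  have hset : ({A, B, C, D} : Set (E n)) = {A, D, C, B} := by
    ext x; simp only [Set.mem_insert_iff, Set.mem_singleton_iff]; tauto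
  rw [hset]; exact this

end Vale.Agent.P058.Quad
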