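import Vale.Agent.P058.ObstructionSub

/-! # The arithmetic obstruction for quadrilaterals -/

namespace Vale.Agent.P058.Quad

open scoped BigOperators

/-- If the diagonals `AC`, `BD` of a quadrilateral cut each other in the ratios `p = i P`, `q = i Q`,
`P, Q` in a field `K` embedded in `ℝ` by `i`, and some other embedding `s` of `K` in `ℝ` makes
`P (1-P) Q (1-Q)` negative, then `{A, B, C, D}` is not subtransitive. -/
theorem quad_not_subtransitive {n : ℕ} (A B C D : E n) {K : Type*} [Field K] (i s : K →+* ℝ)
    (P Q : K) (hrel : (1 - i P) • A + i P • C = (1 - i Q) • B + i Q • D)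
    (hAC : A ≠ C) (hBD : B ≠ D) (hneg : s (P * (1 - P) * (Q * (1 - Q))) < 0) :
    ¬ IsSubtransitive ({A, B, C, D} : Set (E n)) := by
  intro hsub
  set a := s P with ha
  set b := s Q with hb
  have hneg' : a * (1 - a) * (b * (1 - b)) < 0 := by
    simpa [map_mul, map_sub, map_one] using hneg
  let y : Fin 4 → E n := ![A, C, B, D]
  have hy : ∀ j, y j ∈ ({A, B, C, D} : Set (E n)) := by
    intro j; fin_cases j <;> simp [y]
  -- the two sign conventions
  have key : ∀ (e : K) (he : e = 1 ∨ e = -1) (j0 : Fin 4),
      (∀ j, j ≠ j0 → s ((![e * (1 - P), e * P, -(e * (1 - Q)), -(e * Q)] : Fin 4 → K) j) ≤ 0) →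
      ∀ j, (![e * (1 - P), e * P, -(e * (1 - Q)), -(e * Q)] : Fin 4 → K) j ≠ 0 → y j = y j0 := by
    intro e he j0 h
    refine obstruction_subtransitive hsub i s y hy _ ?_ ?_ j0 h
    · simp [Fin.sum_univ_four]; ring
    · simp only [Fin.sum_univ_four, y, Matrix.cons_val_zero, Matrix.cons_val_one,
        Matrix.cons_val, map_mul, map_sub, map_one, map_neg]
      have h1 : (1 - i P) • A + i P • C - ((1 - i Q) • B + i Q • D) = 0 := sub_eq_zero.2 hrel
      calc (i e * (1 - i P)) • A + (i e * i P) • C + (-(i e * (1 - i Q))) • B + (-(i e * i Q)) • D
          = i e • ((1 - i P) • A + i P • C - ((1 - i Q) • B + i Q • D)) := by module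
        _ = 0 := by rw [h1, smul_zero]
  rcases lt_or_gt_of_ne (show a * (1 - a) ≠ 0 by intro h; rw [h] at hneg'; simp at hneg') with h1 | h1
  · -- a (1 - a) < 0, so b (1 - b) > 0
    have h2 : 0 < b * (1 - b) := by nlinarith
    have hb0 : 0 < b := by nlinarith
    have hb1 : b < 1 := by nlinarith
    rcases lt_or_ge a 0 with ha0 | ha0
    · have := key 1 (Or.inl rfl) 0 (by
        intro j hj
        fin_cases j
        · exact absurd rfl hj
        · simp; linarith
        · simp; linarith
        · simp; linarith) 1 (by
          simp only [Matrix.cons_val_one, Matrix.cons_val_zero, one_mul]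
          intro h
          rw [ha, h, map_zero] at ha0
          exact lt_irrefl _ ha0)
      exact hAC (by simpa [y] using this.symm)
    · have ha1 : 1 < a := by nlinarith
      have := key 1 (Or.inl rfl) 1 (by
        intro j hj
        fin_cases j
        · simp; linarith
        · exact absurd rfl hj
        · simp; linarith
        · simp; linarith) 0 (by
          simp only [Matrix.cons_val_zero, one_mul]
          intro h
          have h3 : s (1 - P) = 0 := by rw [h, map_zero]
          rw [map_sub, map_one, ← ha] at h3
          linarith)
      exact hAC (by simpa [y] using this)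
  · have h2 : b * (1 - b) < 0 := by nlinarith
    have ha0 : 0 < a := by nlinarith
    have ha1 : a < 1 := by nlinarith
    rcases lt_or_ge b 0 with hb0 | hb0
    · have := key (-1) (Or.inr rfl) 2 (by
        intro j hj
        fin_cases j
        · simp; linarith
        · simp; linarith
        · exact absurd rfl hj
        · simp; linarith) 3 (by
          simp only [Matrix.cons_val]
          intro h
          have : Q = 0 := by simpa using h
          rw [hb, this, map_zero] at hb0
          exact lt_irrefl _ hb0)
      exact hBD (by simpa [y] using this.symm)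
    · have hb1 : 1 < b := by nlinarith
      have := key (-1) (Or.inr rfl) 3 (by
        intro j hj
        fin_cases j
        · simp; linarith
        · simp; linarith
        · simp; linarith
        · exact absurd rfl hj) 2 (by
          simp only [Matrix.cons_val]
          intro h
          have : 1 - Q = 0 := by simpa using h
          have h3 : s (1 - Q) = 0 := by rw [this, map_zero]
          rw [map_sub, map_one, ← hb] at h3
          linarith)
      exact hBD (by simpa [y] using this)

end Vale.Agent.P058.Quad
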