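import Vale.Agent.P058.Quad.Defs

/-! # Row Q1: equal fibre cardinalities give a permutation -/

namespace Vale.Agent.P058.Quad

open scoped BigOperators RealInnerProductSpace

/-- (Q1) `ι ≃ Σ z, {i // f i = z}` (`Equiv.sigmaFiberEquiv`), the fibres of `f` and `g` over `z` have the
same cardinality (`Fintype.equivOfCardEq`, `Fintype.card_subtype`), `Equiv.sigmaCongrRight`. -/
lemma exists_perm_of_card_fiber {ι Λ : Type*} [Fintype ι] [DecidableEq Λ] (f g : ι → Λ)
    (h : ∀ z, (Finset.univ.filter fun i => g i = z).card =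
      (Finset.univ.filter fun i => f i = z).card) :
    ∃ π : Equiv.Perm ι, ∀ i, g i = f (π i) := by
  classical
  have hz : ∀ z, Nonempty ({i // g i = z} ≃ {i // f i = z}) := by
    intro z
    refine ⟨Fintype.equivOfCardEq ?_⟩
    rw [Fintype.card_subtype, Fintype.card_subtype]
    exact h z
  let ez : ∀ z, {i // g i = z} ≃ {i // f i = z} := fun z => (hz z).some
  let π : Equiv.Perm ι :=
    ((Equiv.sigmaFiberEquiv g).symm.trans (Equiv.sigmaCongrRight ez)).trans
      (Equiv.sigmaFiberEquiv f)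
  refine ⟨π, fun i => ?_⟩
  have : π i = ((ez (g i)) ⟨i, rfl⟩ : ι) := rfl
  rw [this]
  exact ((ez (g i)) ⟨i, rfl⟩).2.symm

/-- (Q1) -/
lemma mem_blockSet_of_card_fiber {ι Λ : Type*} [Fintype ι] [DecidableEq Λ] (f g : ι → Λ)
    (val : Λ → ℝ)
    (h : ∀ z, (Finset.univ.filter fun i => g i = z).card =
      (Finset.univ.filter fun i => f i = z).card) :
    (WithLp.toLp 2 (fun i => val (g i)) : EuclideanSpace ℝ ι) ∈
      blockSet (WithLp.toLp 2 (fun i => val (f i)) : EuclideanSpace ℝ ι) := by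
  obtain ⟨π, hπ⟩ := exists_perm_of_card_fiber f g h
  refine ⟨π, ?_⟩
  ext i
  simp [hπ i]

end Vale.Agent.P058.Quad
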