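import Vale.Agent.P058.Quad.Perm

/-! # Row Q2: a design from a weighted family of cells -/

namespace Vale.Agent.P058.Quad

open scoped BigOperators RealInnerProductSpace

private lemma card_filter_sigma {J Λ : Type} [Fintype J] [DecidableEq Λ] (m : J → ℕ) (f : J → Λ)
    (z : Λ) : (Finset.univ.filter fun i : (Σ j, Fin (m j)) => f i.1 = z).card =
      ∑ j with f j = z, m j := by
  classical
  have h : (Finset.univ.filter fun i : (Σ j, Fin (m j)) => f i.1 = z) =
      (Finset.univ.filter fun j => f j = z).sigma (fun j => (Finset.univ : Finset (Fin (m j)))) := by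
    ext ⟨j, k⟩
    simp
  rw [h, Finset.card_sigma]
  simp

private lemma sum_sigma_const {J : Type} [Fintype J] (m : J → ℕ) (F : J → ℝ) :
    ∑ i : (Σ j, Fin (m j)), F i.1 = ∑ j, (m j : ℝ) * F j := by
  rw [Fintype.sum_sigma]
  simp

/-- (Q2) Index type `ι = Σ j, Fin (m j)`, `a ⟨j, _⟩ = val (fa j)` etc., `v = a`.
The number of `i : ι` with `fa i.1 = z` is `∑ j with fa j = z, m j`
(`Finset.card_sigma` / `Fintype.card_sigma` after identifying the filter), so
`mem_blockSet_of_card_fiber` applies.  Sums over `ι`: `Fintype.sum_sigma`, the inner sum is constant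
(`Finset.sum_const`, `Finset.card_univ`, `Fintype.card_fin`, `nsmul_eq_mul`).
`‖x‖^2 = ∑ i, x i ^ 2` (`EuclideanSpace.norm_sq_eq` / `EuclideanSpace.real_norm_sq_eq`),
`⟪x, y⟫ = ∑ i, x i * y i` (`PiLp.inner_apply`; mind the order of the factors).
`a ≠ c` because `‖c - a‖^2 ≠ 0`. -/
theorem hasDesign_of_weights {J Λ : Type} [Fintype J] [DecidableEq Λ] (p q σ : ℝ) (m : J → ℕ)
    (fa fb fc fd : J → Λ) (val : Λ → ℝ)
    (hb : ∀ z, ∑ j with fb j = z, m j = ∑ j with fa j = z, m j)
    (hc : ∀ z, ∑ j with fc j = z, m j = ∑ j with fa j = z, m j)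
    (hd : ∀ z, ∑ j with fd j = z, m j = ∑ j with fa j = z, m j)
    (hrel : ∀ j, (1 - p) * val (fa j) + p * val (fc j) = (1 - q) * val (fb j) + q * val (fd j))
    (hU : ∑ j, (m j : ℝ) * (val (fc j) - val (fa j)) ^ 2 ≠ 0)
    (hS : ∑ j, (m j : ℝ) * ((val (fc j) - val (fa j)) * (val (fd j) - val (fb j))) =
      σ * ∑ j, (m j : ℝ) * (val (fc j) - val (fa j)) ^ 2) : HasDesign p q σ := by
  classical
  let ι := Σ j, Fin (m j)
  let T : (J → Λ) → EuclideanSpace ℝ ι := fun f => WithLp.toLp 2 (fun i : ι => val (f i.1))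
  have hmem : ∀ g : J → Λ, (∀ z, ∑ j with g j = z, m j = ∑ j with fa j = z, m j) →
      T g ∈ blockSet (T fa) := by
    intro g hg
    refine mem_blockSet_of_card_fiber (fun i : ι => fa i.1) (fun i : ι => g i.1) val ?_
    intro z
    rw [card_filter_sigma, card_filter_sigma, hg z]
  have hnorm : ‖T fc - T fa‖ ^ 2 = ∑ j, (m j : ℝ) * (val (fc j) - val (fa j)) ^ 2 := by
    rw [EuclideanSpace.real_norm_sq_eq]
    exact sum_sigma_const m (fun j => (val (fc j) - val (fa j)) ^ 2)
  refine ⟨ι, inferInstance, T fa, T fa, T fb, T fc, T fd, hmem fa (fun _ => rfl), hmem fb hb,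
    hmem fc hc, hmem fd hd, ?_, ?_, ?_⟩
  · ext i
    simpa [T] using hrel i.1
  · intro h
    apply hU
    rw [← hnorm, h, sub_self]
    simp
  · rw [hnorm, ← hS, PiLp.inner_apply]
    rw [← sum_sigma_const m (fun j => (val (fc j) - val (fa j)) * (val (fd j) - val (fb j)))]
    refine Finset.sum_congr rfl fun i _ => ?_
    simp [T, mul_comm]

end Vale.Agent.P058.Quad
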